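import Vale.Agent.P155.D877.Trans
import Vale.Agent.P155.E.Prob

/-!
# P155, TIGHT: lattice forms of CROSS, FAT, TOP

`LC`, `LF`, `LT` are statements about one Temperleyan graph `T` which fits into the box of size
`R`, and a lattice rectangle of size and depth at least `c R`.  Transposition exchanges the two
directions.
-/

namespace Vale.Agent.P155.D877

open Finset Vale.Agent.P155.T802 Vale.Agent.P155.Q1 Vale.Agent.P155.Skel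

/-- the lattice rectangle `{p0 ≤ p ≤ p1, q0 ≤ q ≤ q1}` has size and depth at least `c R` in `T` -/
structure LRect (p q : Pt → ℤ) (T : Temp) (R : ℕ) (c : ℝ) (p0 p1 q0 q1 : ℤ) : Prop where
  hp : c * R ≤ (p1 : ℝ) - p0
  hq : c * R ≤ (q1 : ℝ) - q0
  deep : ∀ z : Pt, p0 ≤ p z → p z ≤ p1 → q0 ≤ q z → q z ≤ q1 → c * R ≤ dF T.faceSet z

/-- **lattice CROSS** -/
def LC (p q : Pt → ℤ) : Prop :=
  ∀ c ε : ℝ, 0 < c → 0 < ε → ∃ M R0 : ℕ, ∀ R : ℕ, R0 ≤ R → ∀ T : Temp, Fits T R →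
  ∀ p0 p1 q0 q1 : ℤ, LRect p q T R c p0 p1 q0 q1 →
    Pr T.V (fun ω => M < Set.ncard {v | ∃ m, Strand p q ω p0 p1 q0 q1 v m}) ≤ ε

/-- the faces surrounded by the loop of `v` in the rectangle enlarged by `e` -/
def Area (p q : Pt → ℤ) (ω : Conf) (v : Pt) (e : ℝ) (p0 p1 q0 q1 : ℤ) : Set Pt :=
  {f | surr ω (comp ω v) f ∧ (p0 : ℝ) - e ≤ p f ∧ (p f : ℝ) + 1 ≤ p1 + e ∧
    (q0 : ℝ) - e ≤ q f ∧ (q f : ℝ) + 1 ≤ q1 + e}

/-- **lattice FAT** -/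
def LF (p q : Pt → ℤ) : Prop :=
  ∀ c ε : ℝ, 0 < c → 0 < ε → ∃ α : ℝ, 0 < α ∧ ∃ R0 : ℕ, ∀ R : ℕ, R0 ≤ R → ∀ T : Temp, Fits T R →
  ∀ p0 p1 q0 q1 : ℤ, LRect p q T R c p0 p1 q0 q1 →
    Pr T.V (fun ω => ∃ v m, Strand p q ω p0 p1 q0 q1 v m ∧
      (Set.ncard (Area p q ω v (c * R) p0 p1 q0 q1) : ℝ) < α * (R : ℝ) ^ 2) ≤ ε

/-- the faces above the highest edges of the strand are surrounded by its loop -/
def Up (ω : Conf) (v : Pt) (m : ℕ) (p0 p1 : ℤ) : Prop :=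
  ∀ X, p0 ≤ X → X < p1 → surr ω (comp ω v) (X, topS Prod.fst Prod.snd ω v m X)

/-- **lattice FAT, upper half**: only for strands with the loop above them -/
def LFup : Prop :=
  ∀ c ε : ℝ, 0 < c → 0 < ε → ∃ α : ℝ, 0 < α ∧ ∃ R0 : ℕ, ∀ R : ℕ, R0 ≤ R → ∀ T : Temp, Fits T R →
  ∀ p0 p1 q0 q1 : ℤ, LRect Prod.fst Prod.snd T R c p0 p1 q0 q1 →
    Pr T.V (fun ω => ∃ v m, Strand Prod.fst Prod.snd ω p0 p1 q0 q1 v m ∧ Up ω v m p0 p1 ∧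
      (Set.ncard (Area Prod.fst Prod.snd ω v (c * R) p0 p1 q0 q1) : ℝ) < α * (R : ℝ) ^ 2) ≤ ε

/-- **lattice TOP** -/
def LT (p q : Pt → ℤ) : Prop :=
  ∀ c ε : ℝ, 0 < c → 0 < ε → ∃ α : ℝ, 0 < α ∧ ∃ R0 : ℕ, ∀ R : ℕ, R0 ≤ R → ∀ T : Temp, Fits T R →
  ∀ p0 p1 q0 q1 X0 X1 : ℤ, LRect p q T R c p0 p1 q0 q1 →
  (p0 : ℝ) + c * R ≤ X0 → (X0 : ℝ) + c * R ≤ X1 → (X1 : ℝ) + c * R ≤ p1 →
    Pr T.V (fun ω => ∃ v m v' m', Strand p q ω p0 p1 q0 q1 v m ∧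
      Strand p q ω p0 p1 q0 q1 v' m' ∧ v ≠ v' ∧ Same ω v v' ∧
      (∑ X ∈ Finset.Ico X0 X1, |(topS p q ω v m X : ℝ) - topS p q ω v' m' X|) <
        α * (R : ℝ) ^ 2) ≤ ε

theorem fst_tr : (fun u : Pt => (tr u).1) = Prod.snd := rfl
theorem snd_tr : (fun u : Pt => (tr u).2) = Prod.fst := rfl

theorem lrect_tr {T : Temp} {R : ℕ} {c : ℝ} {p0 p1 q0 q1 : ℤ}
    (h : LRect Prod.snd Prod.fst T R c p0 p1 q0 q1) :
    LRect Prod.fst Prod.snd (trT T) R c p0 p1 q0 q1 where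
  hp := h.hp
  hq := h.hq
  deep := fun z h1 h2 h3 h4 => by
    have := h.deep (tr z) h1 h2 h3 h4
    rwa [← dF_tr, tr_tr] at this

theorem pr_trT (T : Temp) (A : Conf → Prop) :
    Pr T.V A = Pr (trT T).V (fun ω => A (trc ω)) := by
  rw [V_tr, Pr_tr]
  simp only [trc_trc]

theorem strand_tr' {ω : Conf} {p0 p1 q0 q1 : ℤ} {v : Pt} {m : ℕ} :
    Strand Prod.snd Prod.fst (trc ω) p0 p1 q0 q1 (tr v) m ↔
      Strand Prod.fst Prod.snd ω p0 p1 q0 q1 v m := strand_tr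

/-- the number of crossing strands is invariant -/
theorem ncard_tr (ω : Conf) (p0 p1 q0 q1 : ℤ) :
    Set.ncard {v | ∃ m, Strand Prod.snd Prod.fst (trc ω) p0 p1 q0 q1 v m} =
      Set.ncard {v | ∃ m, Strand Prod.fst Prod.snd ω p0 p1 q0 q1 v m} := by
  have e : {v | ∃ m, Strand Prod.snd Prod.fst (trc ω) p0 p1 q0 q1 v m} =
      tr '' {v | ∃ m, Strand Prod.fst Prod.snd ω p0 p1 q0 q1 v m} := by
    ext v
    constructor
    · rintro ⟨m, h⟩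
      exact ⟨tr v, ⟨m, strand_tr'.1 (by rwa [tr_tr])⟩, tr_tr v⟩
    · rintro ⟨u, ⟨m, h⟩, rfl⟩
      exact ⟨m, strand_tr'.2 h⟩
  rw [e]
  exact Set.ncard_image_of_injective _ trE.injective

theorem lc_tr (h : LC Prod.fst Prod.snd) : LC Prod.snd Prod.fst := by
  intro c ε hc hε
  obtain ⟨M, R0, h1⟩ := h c ε hc hε
  refine ⟨M, R0, fun R hR T hT p0 p1 q0 q1 hr => ?_⟩
  have h2 := h1 R hR (trT T) (fits_tr hT) p0 p1 q0 q1 (lrect_tr hr)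
  rw [pr_trT]
  simp only [ncard_tr]
  exact h2

theorem area_tr {V : Finset Pt} {ω : Conf} (hω : ω ∈ DD V) {v : Pt} (hv : ω.1 (tr v) ≠ ω.2 (tr v))
    (e : ℝ) (p0 p1 q0 q1 : ℤ) : Area Prod.snd Prod.fst (trc ω) v e p0 p1 q0 q1 =
      tr '' Area Prod.fst Prod.snd ω (tr v) e p0 p1 q0 q1 := by
  have key : ∀ f, surr (trc ω) (comp (trc ω) v) f ↔ surr ω (comp ω (tr v)) (tr f) := by
    intro f
    have h1 : comp (trc ω) v = trS (comp ω (tr v)) := comp_tr ω (tr v)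
    rw [h1]
    exact surr_tr hω ⟨_, hv, rfl⟩ (tr f)
  ext f
  constructor
  · rintro ⟨h1, h2, h3, h4, h5⟩
    exact ⟨tr f, ⟨(key f).1 h1, h2, h3, h4, h5⟩, tr_tr f⟩
  · rintro ⟨g, ⟨h1, h2, h3, h4, h5⟩, rfl⟩
    exact ⟨(key _).2 h1, h2, h3, h4, h5⟩

theorem strand_tr'' {ω : Conf} {p0 p1 q0 q1 : ℤ} {v : Pt} {m : ℕ}
    (h : Strand Prod.snd Prod.fst (trc ω) p0 p1 q0 q1 v m) :
    Strand Prod.fst Prod.snd ω p0 p1 q0 q1 (tr v) m := strand_tr'.1 (by rwa [tr_tr])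

theorem lf_tr (h : LF Prod.fst Prod.snd) : LF Prod.snd Prod.fst := by
  intro c ε hc hε
  obtain ⟨α, hα, R0, h1⟩ := h c ε hc hε
  refine ⟨α, hα, R0, fun R hR T hT p0 p1 q0 q1 hr => ?_⟩
  have h2 := h1 R hR (trT T) (fits_tr hT) p0 p1 q0 q1 (lrect_tr hr)
  rw [pr_trT]
  refine (E.Pr_mono (fun ω hω => ?_)).trans h2
  rintro ⟨v, m, hs, ha⟩
  have hs' := strand_tr'' hs
  refine ⟨tr v, m, hs', ?_⟩
  have hinj : Function.Injective tr := trE.injective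
  rw [area_tr hω hs'.loop, Set.ncard_image_of_injective _ hinj] at ha
  exact ha

theorem lt_tr (h : LT Prod.fst Prod.snd) : LT Prod.snd Prod.fst := by
  intro c ε hc hε
  obtain ⟨α, hα, R0, h1⟩ := h c ε hc hε
  refine ⟨α, hα, R0, fun R hR T hT p0 p1 q0 q1 X0 X1 hr a1 a2 a3 => ?_⟩
  have h2 := h1 R hR (trT T) (fits_tr hT) p0 p1 q0 q1 X0 X1 (lrect_tr hr) a1 a2 a3
  rw [pr_trT]
  refine (E.Pr_mono (fun ω _ => ?_)).trans h2
  rintro ⟨v, m, v', m', hs, hs', hne, hsame, ht⟩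
  refine ⟨tr v, m, tr v', m', strand_tr'' hs, strand_tr'' hs', fun hh => hne (tr_inj.1 hh), ?_, ?_⟩
  · rw [← same_tr]
    exact hsame
  · have e : ∀ (u : Pt) (k : ℕ) (X : ℤ), topS Prod.snd Prod.fst (trc ω) u k X =
        topS Prod.fst Prod.snd ω (tr u) k X := by
      intro u k X
      exact topS_tr Prod.snd Prod.fst ω (tr u) k X
    simp only [e] at ht
    exact ht

end Vale.Agent.P155.D877
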