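import Vale.Agent.P155.D877.Scale
import Vale.Agent.P155.S7.ToLat

/-!
# P155, TIGHT: CROSS, FAT and TOP from the two steps of the sweep
-/

namespace Vale.Agent.P155.D877

open Vale.Agent.P155.Q1

/-- everything about crossings from `STEP` and `AREA1` -/
theorem tight_of_step (h1 : S7.STEP) (h2 : S7.AREA1) :
    (CROSS hor ∧ CROSS ver) ∧ (FAT hor ∧ FAT ver) ∧ (TOP hor ∧ TOP ver) :=
  tight_of (S7.lc (S7.crosss (S7.crossn h1))) (S7.lfup (S7.fatup (S7.fatn h1 h2)))
    (S7.lt (S7.tops (S7.topn h1)))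

end Vale.Agent.P155.D877
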