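import Vale.Agent.P155.T802.Dict
import Vale.Agent.P155.A.InLoop
import Vale.Agent.P155.Skel

/-!
# P155, TIGHT: transposition of the lattice

`tr (x, y) = (y, x)`.  Temperleyan graphs, pairs of matchings, loops, strands and surrounded
faces are invariant.
-/

namespace Vale.Agent.P155.D877

open Finset Vale.Agent.P155.T802 Vale.Agent.P155.Q1 Vale.Agent.P155.Skel

/-- transposition -/
def tr (v : Pt) : Pt := (v.2, v.1)

@[simp] theorem tr_tr (v : Pt) : tr (tr v) = v := rfl

theorem tr_inj {u v : Pt} : tr u = tr v ↔ u = v :=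
  ⟨fun h => by have := congrArg tr h; simpa using this, fun h => by rw [h]⟩

theorem tr_eq {u v : Pt} : tr u = v ↔ u = tr v := ⟨fun h => by rw [← h, tr_tr], fun h => by rw [h, tr_tr]⟩

/-- transposition as an equivalence -/
def trE : Pt ≃ Pt := ⟨tr, tr, tr_tr, tr_tr⟩

/-- transposition of a matching -/
def trm (m : Pt → Pt) : Pt → Pt := fun v => tr (m (tr v))

theorem trm_trm (m : Pt → Pt) : trm (trm m) = m := rfl

/-- transposition of a configuration -/
def trc (ω : Conf) : Conf := (trm ω.1, trm ω.2)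

theorem trc_trc (ω : Conf) : trc (trc ω) = ω := rfl

/-- transposition of a vertex set -/
def trV (V : Finset Pt) : Finset Pt := V.map trE.toEmbedding

theorem mem_trV {V : Finset Pt} {v : Pt} : v ∈ trV V ↔ tr v ∈ V := by
  unfold trV
  rw [Finset.mem_map_equiv]
  rfl

theorem trV_trV (V : Finset Pt) : trV (trV V) = V := by
  ext v
  rw [mem_trV, mem_trV, tr_tr]

theorem adj_tr {u v : Pt} : Adj (tr u) (tr v) ↔ Adj u v := by
  unfold Adj tr
  simp only
  rw [add_comm]

theorem white_tr {v : Pt} : White (tr v) ↔ White v := by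
  unfold White tr
  simp only
  rw [add_comm]

theorem isPM_tr {V : Finset Pt} {m : Pt → Pt} (h : IsPM V m) : IsPM (trV V) (trm m) where
  invol := fun v => by
    unfold trm
    rw [tr_tr, h.invol, tr_tr]
  off := fun v hv => by
    unfold trm
    rw [h.off _ (fun hh => hv (mem_trV.2 hh)), tr_tr]
  adj := fun v hv => by
    unfold trm
    rw [← adj_tr, tr_tr]
    exact h.adj _ (mem_trV.1 hv)

theorem isPM_tr_iff {V : Finset Pt} {m : Pt → Pt} : IsPM (trV V) (trm m) ↔ IsPM V m := by
  refine ⟨fun h => ?_, isPM_tr⟩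
  have := isPM_tr h
  rwa [trV_trV, trm_trm] at this

theorem mem_DD_tr {V : Finset Pt} {ω : Conf} : trc ω ∈ DD (trV V) ↔ ω ∈ DD V := by
  unfold DD
  rw [Finset.mem_product, Finset.mem_product, mem_PM, mem_PM, mem_PM, mem_PM]
  exact and_congr isPM_tr_iff isPM_tr_iff

/-- transposition of configurations as an equivalence -/
def trcE : Conf ≃ Conf := ⟨trc, trc, trc_trc, trc_trc⟩

theorem DD_tr (V : Finset Pt) : DD (trV V) = (DD V).map trcE.toEmbedding := by
  ext ω
  rw [Finset.mem_map_equiv]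
  exact (mem_DD_tr (V := V) (ω := trc ω))

theorem Ex_tr {E : Type*} [AddCommMonoid E] [Module ℝ E] (V : Finset Pt) (g : Conf → E) :
    Ex (trV V) g = Ex V (fun ω => g (trc ω)) := by
  unfold Ex
  rw [DD_tr, Finset.card_map, Finset.sum_map]
  rfl

theorem Pr_tr (V : Finset Pt) (p : Conf → Prop) : Pr (trV V) p = Pr V (fun ω => p (trc ω)) := by
  unfold Pr
  rw [Ex_tr]
  rfl

theorem suc_tr (ω : Conf) (v : Pt) : SW.suc (trc ω) (tr v) = tr (SW.suc ω v) := by
  unfold SW.suc
  by_cases h : White v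
  · rw [if_pos h, if_pos (white_tr.2 h)]
    rfl
  · rw [if_neg h, if_neg (fun hh => h (white_tr.1 hh))]
    rfl

theorem iter_tr (ω : Conf) (v : Pt) (j : ℕ) :
    (SW.suc (trc ω))^[j] (tr v) = tr ((SW.suc ω)^[j] v) := by
  induction j with
  | zero => rfl
  | succ j ih => rw [Function.iterate_succ_apply', Function.iterate_succ_apply', ih, suc_tr]

theorem iter_tr' (ω : Conf) (v : Pt) (j : ℕ) :
    (SW.suc (trc ω))^[j] v = tr ((SW.suc ω)^[j] (tr v)) := by
  rw [← iter_tr, tr_tr]

theorem strand_tr {p q : Pt → ℤ} {ω : Conf} {p0 p1 q0 q1 : ℤ} {v : Pt} {m : ℕ} :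
    Strand p q (trc ω) p0 p1 q0 q1 (tr v) m ↔
      Strand (fun u => p (tr u)) (fun u => q (tr u)) ω p0 p1 q0 q1 v m := by
  have hl : (trc ω).1 (tr v) ≠ (trc ω).2 (tr v) ↔ ω.1 v ≠ ω.2 v := by
    unfold trc trm
    simp only [tr_tr]
    rw [ne_eq, ne_eq, tr_inj]
  constructor
  · intro h
    refine ⟨hl.1 h.loop, fun j hj => ?_, fun j h1 h2 => ?_, ?_⟩
    · have := h.qmem j hj
      rw [iter_tr] at this
      exact this
    · have := h.pmem j h1 h2
      rw [iter_tr] at this
      exact this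
    · have := h.ends
      rw [iter_tr] at this
      exact this
  · intro h
    refine ⟨hl.2 h.loop, fun j hj => ?_, fun j h1 h2 => ?_, ?_⟩
    · rw [iter_tr]
      exact h.qmem j hj
    · rw [iter_tr]
      exact h.pmem j h1 h2
    · rw [iter_tr]
      exact h.ends

theorem topS_tr (p q : Pt → ℤ) (ω : Conf) (v : Pt) (m : ℕ) (X : ℤ) :
    topS p q (trc ω) (tr v) m X = topS (fun u => p (tr u)) (fun u => q (tr u)) ω v m X := by
  unfold topS
  simp only [iter_tr]

theorem same_tr' {ω : Conf} {u v : Pt} (h : Same ω u v) : Same (trc ω) (tr u) (tr v) := by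
  induction h with
  | refl => exact Relation.ReflTransGen.refl
  | @tail b c _ hbc ih =>
    refine Relation.ReflTransGen.tail ih ?_
    unfold trc trm
    simp only [tr_tr, tr_inj]
    exact hbc

theorem same_tr {ω : Conf} {u v : Pt} : Same (trc ω) (tr u) (tr v) ↔ Same ω u v :=
  ⟨fun h => same_tr' h, same_tr'⟩

/-- transposition of a set -/
def trS (A : Set Pt) : Set Pt := {u | tr u ∈ A}

theorem mem_trS {A : Set Pt} {u : Pt} : u ∈ trS A ↔ tr u ∈ A := Iff.rfl

theorem trS_trS (A : Set Pt) : trS (trS A) = A := rfl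

theorem trS_inj {A B : Set Pt} : trS A = trS B ↔ A = B :=
  ⟨fun h => by rw [← trS_trS A, h, trS_trS], fun h => by rw [h]⟩

theorem comp_tr (ω : Conf) (v : Pt) : comp (trc ω) (tr v) = trS (comp ω v) := by
  ext u
  show Same (trc ω) (tr v) (tr (tr u)) ↔ Same ω v (tr u)
  exact same_tr

theorem loops_tr {ω : Conf} {A : Set Pt} : trS A ∈ Loops (trc ω) ↔ A ∈ Loops ω := by
  constructor
  · rintro ⟨v, hv, h⟩
    refine ⟨tr v, ?_, ?_⟩
    · unfold trc trm at hv
      simp only at hv
      exact fun h => hv (by rw [h])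
    · rw [← trS_inj, h, ← comp_tr, tr_tr]
  · rintro ⟨v, hv, rfl⟩
    refine ⟨tr v, ?_, ?_⟩
    · unfold trc trm
      simp only [tr_tr]
      rwa [ne_eq, tr_inj]
    · rw [comp_tr]

theorem ind_congr' {p q : Prop} (h : p ↔ q) : ind p = ind q := ind_congr h

theorem eA_tr (ω : Conf) (A : Set Pt) (v : Pt) : eA (trc ω) (trS A) (tr v) = eB ω A v := by
  unfold eA eB trc trm
  simp only [mem_trS, tr_tr]
  have e : ((tr v).1, (tr v).2 + 1) = tr (v.1 + 1, v.2) := rfl
  rw [e, tr_tr, tr_inj, tr_inj]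

theorem eB_tr (ω : Conf) (A : Set Pt) (v : Pt) : eB (trc ω) (trS A) (tr v) = eA ω A v := by
  unfold eA eB trc trm
  simp only [mem_trS, tr_tr]
  have e : ((tr v).1 + 1, (tr v).2) = tr (v.1, v.2 + 1) := rfl
  rw [e, tr_tr, tr_inj, tr_inj]

/-- **surrounded faces** -/
theorem surr_tr {V : Finset Pt} {ω : Conf} (hω : ω ∈ DD V) {A : Set Pt} (hA : A ∈ Loops ω)
    (f : Pt) : surr (trc ω) (trS A) (tr f) ↔ surr ω A f := by
  have hω' := mem_DD_tr.2 hω
  have hA' := loops_tr.2 hA
  have hev := loop_even hω hA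
  have hev' := loop_even hω' hA'
  refine ind_iff ?_
  rw [surr_par hω' hA', surr_par hω hA]
  -- induction on `f.1`
  obtain ⟨M, hM⟩ := hev.bd
  have key : ∀ n : ℕ, ∀ x y : ℤ, x = M - 1 + n →
      par (eA (trc ω) (trS A)) (tr (x, y)) = par (eA ω A) (x, y) := by
    intro n
    induction n with
    | zero =>
      intro x y hx
      simp only [Nat.cast_zero, add_zero] at hx
      rw [par_zero_left (a := eA ω A) (fun x' hx' => (hM (x', y) (by simp only; omega)).1)]
      refine par_zero_row (fun x' => ?_) _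
      exact (eA_tr ω A (x, x')).trans (hM (x, x') (by simp only; omega)).2
    | succ n ih =>
      intro x y hx
      have ih' := ih (x - 1) y (by push_cast at hx; omega)
      have e1 := par_right hev x y
      have e2 := par_up hev' y x
      rw [e1, ← ih']
      show par (eA (trc ω) (trS A)) (y, x) = _
      rw [e2]
      congr 1
      exact eB_tr ω A (x, y)
  obtain ⟨x, y⟩ := f
  by_cases hx : M - 1 ≤ x
  · exact key (x - (M - 1)).toNat x y (by rw [Int.toNat_of_nonneg (by omega)]; ring)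
  · rw [par_zero_left (a := eA ω A) (fun x' hx' => (hM (x', y) (by simp only; omega)).1)]
    refine par_zero_row (fun x' => ?_) _
    exact (eA_tr ω A (x, x')).trans (hM (x, x') (by simp only; omega)).2

/-! ### Temperleyan graphs -/

/-- transposition of a lattice cycle -/
def trγ (γ : LatCycle) : LatCycle where
  n := γ.n
  hn := γ.hn
  c := fun i => tr (γ.c i)
  inj := fun _ _ h => γ.inj (tr_inj.1 h)
  adj := fun i => adj_tr.2 (γ.adj i)

theorem edge_tr (γ : LatCycle) (u v : Pt) : (trγ γ).edge (tr u) (tr v) ↔ γ.edge u v := by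
  unfold LatCycle.edge trγ
  simp only [tr_inj]

theorem inside_tr (γ : LatCycle) (f : Pt) : (trγ γ).inside (tr f) ↔ γ.inside f := by
  obtain ⟨M, hM0, hM⟩ := LatCycle.exists_bound (γ := γ)
  have hM' : ∀ v ∈ (trγ γ).verts, |v.1| ≤ M ∧ |v.2| ≤ M := by
    rintro v ⟨i, rfl⟩
    exact (hM (γ.c i) ⟨i, rfl⟩).symm
  have key : ∀ n : ℕ, ∀ x y : ℤ, x = - M - 1 + n →
      ((trγ γ).inside (tr (x, y)) ↔ γ.inside (x, y)) := by
    intro n
    induction n with
    | zero =>
      intro x y hx
      simp only [Nat.cast_zero, add_zero] at hx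
      refine iff_of_false ?_ (LatCycle.not_inside_left hM (by omega))
      exact LatCycle.not_inside_vert hM' (Or.inr (by omega))
    | succ n ih =>
      intro x y hx
      have ih' := ih (x - 1) y (by push_cast at hx; omega)
      have he : (trγ γ).hedge y x ↔ γ.vedge x y := edge_tr γ (x, y) (x, y + 1)
      by_cases h : γ.vedge x y
      · have h1 := LatCycle.inside_iff_v' x y h
        have h2 := LatCycle.inside_iff_h' y x (he.2 h)
        rw [h1, ← ih']
        exact h2
      · have h1 := LatCycle.inside_iff_v x y h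
        have h2 := LatCycle.inside_iff_h y x (fun hh => h (he.1 hh))
        rw [h1, ← ih']
        exact h2
  obtain ⟨x, y⟩ := f
  by_cases hx : - M - 1 ≤ x
  · exact key (x - (- M - 1)).toNat x y (by rw [Int.toNat_of_nonneg (by omega)]; ring)
  · refine iff_of_false ?_ (LatCycle.not_inside_left hM (by omega))
    exact LatCycle.not_inside_vert hM' (Or.inr (by omega))

/-- transposition of a Temperleyan graph -/
def trT (T : Temp) : Temp := ⟨trγ T.γ, T.i0⟩

theorem cells_tr (T : Temp) (f : Pt) : tr f ∈ (trT T).cells ↔ f ∈ T.cells := inside_tr T.γ f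

theorem v0_tr (T : Temp) : (trT T).v0 = tr T.v0 := rfl

theorem closedVerts_tr (T : Temp) (v : Pt) : tr v ∈ (trT T).closedVerts ↔ v ∈ T.closedVerts := by
  constructor
  · rintro ⟨f, hf, h1, h2, h3, h4⟩
    exact ⟨tr f, (cells_tr T (tr f)).1 hf, h3, h4, h1, h2⟩
  · rintro ⟨f, hf, h1, h2, h3, h4⟩
    exact ⟨tr f, (cells_tr T f).2 hf, h3, h4, h1, h2⟩

theorem faceSet_tr (T : Temp) (v : Pt) : tr v ∈ (trT T).faceSet ↔ v ∈ T.faceSet := by
  constructor
  · rintro ⟨f, hf, h1, h2, h3, h4⟩
    exact ⟨tr f, (cells_tr T (tr f)).1 hf, h3, h4, h1, h2⟩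
  · rintro ⟨f, hf, h1, h2, h3, h4⟩
    exact ⟨tr f, (cells_tr T f).2 hf, h3, h4, h1, h2⟩

theorem V_tr (T : Temp) : (trT T).V = trV T.V := by
  have hset : ((trT T).closedVerts \ {(trT T).v0}) = trE '' (T.closedVerts \ {T.v0}) := by
    ext v
    rw [Equiv.image_eq_preimage_symm]
    simp only [Set.mem_sdiff, Set.mem_preimage, Set.mem_singleton_iff]
    show _ ↔ (tr v ∈ _ ∧ ¬ tr v = _)
    rw [← closedVerts_tr T (tr v), tr_tr, v0_tr, tr_eq]
  unfold Temp.V
  by_cases h : (T.closedVerts \ {T.v0}).Finite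
  · have h' : ((trT T).closedVerts \ {(trT T).v0}).Finite := by
      rw [hset]
      exact h.image _
    rw [dif_pos h, dif_pos h']
    ext v
    rw [mem_trV, Set.Finite.mem_toFinset, Set.Finite.mem_toFinset, hset,
      Equiv.image_eq_preimage_symm]
    rfl
  · have h' : ¬ ((trT T).closedVerts \ {(trT T).v0}).Finite := by
      intro h'
      rw [hset] at h'
      exact h (Set.Finite.of_finite_image h' trE.injective.injOn)
    rw [dif_neg h, dif_neg h']
    rfl

theorem dinf_tr (u v : Pt) : dinf (tr u) (tr v) = dinf u v := by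
  unfold dinf tr
  exact max_comm _ _

theorem dn_tr (u v : Pt) : dn (tr u) (tr v) = dn u v := by
  unfold dn
  rw [dinf_tr]

theorem dF_tr (T : Temp) (x : Pt) : dF (trT T).faceSet (tr x) = dF T.faceSet x := by
  unfold dF
  congr 1
  ext r
  constructor
  · rintro ⟨y, hy, h⟩
    refine ⟨tr y, fun hh => hy ?_, ?_⟩
    · have := (faceSet_tr T (tr y)).2 hh
      rwa [tr_tr] at this
    · rw [← dn_tr, tr_tr]
      exact h
  · rintro ⟨y, hy, h⟩
    refine ⟨tr y, fun hh => hy ((faceSet_tr T y).1 hh), ?_⟩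
    rw [dn_tr]
    exact h

theorem box_tr (x : Pt) (r : ℕ) (y : Pt) : tr y ∈ box (tr x) r ↔ y ∈ box x r := by
  unfold box tr
  simp only [Finset.mem_product, Finset.mem_Icc]
  tauto

theorem fits_tr {T : Temp} {R : ℕ} (h : Fits T R) : Fits (trT T) R := by
  intro v hv
  have h1 : tr v ∈ T.faceSet := by
    rw [← faceSet_tr, tr_tr]
    exact hv
  have h2 := h h1
  rw [Finset.mem_coe] at h2 ⊢
  rw [← box_tr]
  exact h2

end Vale.Agent.P155.D877
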