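import Vale.Agent.P155.T802.Seq
import Vale.Agent.P155.H878.TightIface
import Vale.Agent.P155.H878.Orb

/-!
# P155, TIGHT, S7: dictionary between strands and good crossings of a cap
-/

namespace Vale.Agent.P155.D877

open Finset Vale.Agent.P155.T802 Vale.Agent.P155.Q1

variable {V : Finset Pt} {ω : Conf} {Q : Cap}

/-- the points of the strand without its two ends -/
def SK (ω : Conf) (v : Pt) (m : ℕ) : Set Pt := {u | ∃ j, 0 < j ∧ j < m ∧ u = (SW.suc ω)^[j] v}

theorem mem_V {p q : Pt → ℤ} {p0 p1 q0 q1 : ℤ} {v : Pt} {m : ℕ} (hω : ω ∈ DD V)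
    (h : Strand p q ω p0 p1 q0 q1 v m) : v ∈ V := by
  by_contra hc
  exact h.loop ((L.off1 hω hc).trans (L.off2 hω hc).symm)

/-- the neighbours of a point of the orbit -/
theorem nb (hω : ω ∈ DD V) {v : Pt} (hv : v ∈ V) (j : ℕ) :
    (ω.1 ((SW.suc ω)^[j + 1] v) = (SW.suc ω)^[j + 2] v ∧
      ω.2 ((SW.suc ω)^[j + 1] v) = (SW.suc ω)^[j] v) ∨
    (ω.2 ((SW.suc ω)^[j + 1] v) = (SW.suc ω)^[j + 2] v ∧
      ω.1 ((SW.suc ω)^[j + 1] v) = (SW.suc ω)^[j] v) := by
  have hu := iter_mem hω hv j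
  rw [Function.iterate_succ_apply', Function.iterate_succ_apply' (SW.suc ω) (j + 1),
    Function.iterate_succ_apply']
  set u := (SW.suc ω)^[j] v
  have hw := suc_white_iff hω hu
  by_cases h : White u
  · have h2 : ¬ White (SW.suc ω u) := by rw [hw]; exact not_not.2 h
    right
    refine ⟨(suc_not_white h2).symm, ?_⟩
    rw [SW.suc_white h, L.inv1 hω]
  · have h2 : White (SW.suc ω u) := hw.2 h
    left
    refine ⟨(SW.suc_white h2).symm, ?_⟩
    rw [suc_not_white h, L.inv2 hω]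

/-- the neighbours of the starting point -/
theorem nb0 (hω : ω ∈ DD V) {v : Pt} (hv : v ∈ V) :
    ∃ w, SW.suc ω w = v ∧ w ∈ V ∧ ((ω.1 v = SW.suc ω v ∧ ω.2 v = w) ∨
      (ω.2 v = SW.suc ω v ∧ ω.1 v = w)) := by
  have hpm := Finset.mem_product.1 hω
  have h1 := mem_PM.1 hpm.1
  have h2 := mem_PM.1 hpm.2
  by_cases h : White v
  · refine ⟨ω.2 v, ?_, L.mem2 hω hv, Or.inl ⟨(SW.suc_white h).symm, rfl⟩⟩
    have hb : ¬ White (ω.2 v) := by
      rw [SW.color_snd h2 hv, SW.black_iff_not_white]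
      exact not_not.2 h
    rw [suc_not_white hb, L.inv2 hω]
  · refine ⟨ω.1 v, ?_, L.mem1 hω hv, Or.inr ⟨(suc_not_white h).symm, rfl⟩⟩
    have hb : White (ω.1 v) := by
      rw [SW.color_fst h1 hv, SW.black_iff_not_white]
      exact h
    rw [SW.suc_white hb, L.inv1 hω]


section

variable {q0 q1 : ℤ} {v : Pt} {m : ℕ}

/-- a crossing strand has at least two edges -/
theorem two_le (hω : ω ∈ DD V) (h : Strand Prod.fst Prod.snd ω Q.x0 Q.x1 q0 q1 v m) : 2 ≤ m := by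
  have hv := mem_V hω h
  have hS0 := Q.hS0
  have hS1 := Q.hS1
  rcases m with _ | _ | m
  · have := h.ends
    simp only [Function.iterate_zero, id_eq] at this
    omega
  · have ha := T802.adj_coord (suc_adj hω hv)
    have := h.ends
    simp only [zero_add, Function.iterate_one] at this
    omega
  · omega

theorem start_W (h : Strand Prod.fst Prod.snd ω Q.x0 Q.x1 q0 q1 v m) (h0 : Q.y0 ≤ q0)
    (h1 : q1 ≤ Q.yc) : v ∈ Q.W := by
  have hyc := Q.hy1
  have h2 := h.qmem 0 (Nat.zero_le _)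
  simp only [Function.iterate_zero, id_eq] at h2
  rcases h.ends with h3 | h3
  · exact Or.inl ⟨h3.1, by omega, by omega⟩
  · exact Or.inr (Or.inl ⟨h3.1, by omega, by omega⟩)

theorem end_W (h : Strand Prod.fst Prod.snd ω Q.x0 Q.x1 q0 q1 v m) (h0 : Q.y0 ≤ q0)
    (h1 : q1 ≤ Q.yc) : (SW.suc ω)^[m] v ∈ Q.W := by
  have hyc := Q.hy1
  have h2 := h.qmem m le_rfl
  rcases h.ends with h3 | h3
  · exact Or.inr (Or.inl ⟨h3.2, by omega, by omega⟩)
  · exact Or.inl ⟨h3.2, by omega, by omega⟩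

theorem mid_reg (h : Strand Prod.fst Prod.snd ω Q.x0 Q.x1 q0 q1 v m) (h0 : Q.y0 ≤ q0)
    (h1 : q1 ≤ Q.yc) {u : Pt} (hu : u ∈ SK ω v m) :
    Q.x0 < u.1 ∧ u.1 < Q.x1 ∧ Q.y0 ≤ u.2 ∧ u.2 ≤ Q.yc := by
  obtain ⟨j, hj0, hjm, rfl⟩ := hu
  have h2 := h.pmem j hj0 hjm
  have h3 := h.qmem j hjm.le
  exact ⟨h2.1, h2.2, by omega, by omega⟩

theorem mid_notW (h : Strand Prod.fst Prod.snd ω Q.x0 Q.x1 q0 q1 v m) (h0 : Q.y0 ≤ q0)
    (h1 : q1 ≤ Q.yc) {u : Pt} (hu : u ∈ SK ω v m) : u ∉ Q.W := by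
  have hyc := Q.hy1
  have h2 := mid_reg h h0 h1 hu
  rintro (h3 | h3 | h3)
  · omega
  · omega
  · omega

/-- **(D1)** the interior of a crossing strand is a component cut at the wall -/
theorem compW_strand (hω : ω ∈ DD V) (h : Strand Prod.fst Prod.snd ω Q.x0 Q.x1 q0 q1 v m)
    (h0 : Q.y0 ≤ q0) (h1 : q1 ≤ Q.yc) : compW Q.W ω (SW.suc ω v) = SK ω v m := by
  have hv := mem_V hω h
  have hm := two_le hω h
  ext u
  constructor
  · intro hu
    have hu' : SameW Q.W ω (SW.suc ω v) u := hu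
    clear hu
    induction hu' with
    | refl => exact ⟨1, by omega, by omega, rfl⟩
    | @tail b c _ hbc ih =>
      obtain ⟨j, hj0, hjm, rfl⟩ := ih
      obtain ⟨hcW, hc⟩ := hbc
      obtain ⟨i, rfl⟩ : ∃ i, j = i + 1 := ⟨j - 1, by omega⟩
      have key : c = (SW.suc ω)^[i + 2] v ∨ c = (SW.suc ω)^[i] v := by
        rcases nb hω hv i with ⟨e1, e2⟩ | ⟨e1, e2⟩
        · rcases hc with hc | hc
          · exact Or.inl (hc.trans e1)
          · exact Or.inr (hc.trans e2)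
        · rcases hc with hc | hc
          · exact Or.inr (hc.trans e2)
          · exact Or.inl (hc.trans e1)
      rcases key with rfl | rfl
      · rcases (show i + 2 ≤ m by omega).lt_or_eq with h3 | h3
        · exact ⟨i + 2, by omega, h3, rfl⟩
        · subst h3
          exact absurd (end_W h h0 h1) hcW
      · rcases Nat.eq_zero_or_pos i with h3 | h3
        · subst h3
          exact absurd (start_W h h0 h1) hcW
        · exact ⟨i, h3, by omega, rfl⟩
  · rintro ⟨j, hj0, hjm, rfl⟩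
    show SameW Q.W ω _ _
    induction j, hj0 using Nat.le_induction with
    | base => exact Relation.ReflTransGen.refl
    | succ j hj ih =>
      refine Relation.ReflTransGen.tail (ih (by omega)) ⟨?_, ?_⟩
      · exact mid_notW h h0 h1 ⟨j + 1, by omega, hjm, rfl⟩
      · rw [Function.iterate_succ_apply']
        unfold SW.suc
        split_ifs
        · exact Or.inl rfl
        · exact Or.inr rfl

theorem suc_mem_SK (hω : ω ∈ DD V) (h : Strand Prod.fst Prod.snd ω Q.x0 Q.x1 q0 q1 v m) :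
    SW.suc ω v ∈ SK ω v m := ⟨1, by omega, by have := two_le hω h; omega, rfl⟩

theorem start_notin (h : Strand Prod.fst Prod.snd ω Q.x0 Q.x1 q0 q1 v m) : v ∉ SK ω v m := by
  rintro ⟨j, hj0, hjm, hj⟩
  have h2 := h.pmem j hj0 hjm
  rw [← hj] at h2
  have := h.ends
  omega

theorem end_notin (h : Strand Prod.fst Prod.snd ω Q.x0 Q.x1 q0 q1 v m) :
    (SW.suc ω)^[m] v ∉ SK ω v m := by
  rintro ⟨j, hj0, hjm, hj⟩
  have h2 := h.pmem j hj0 hjm
  rw [← hj] at h2
  have := h.ends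
  omega

/-- the strand is determined by its interior -/
theorem strand_inj (hω : ω ∈ DD V) {v' : Pt} {m' : ℕ}
    (h : Strand Prod.fst Prod.snd ω Q.x0 Q.x1 q0 q1 v m)
    (_h' : Strand Prod.fst Prod.snd ω Q.x0 Q.x1 q0 q1 v' m') (e : SK ω v m = SK ω v' m') :
    v = v' := by
  have h1 := suc_mem_SK hω h
  rw [e] at h1
  obtain ⟨j, hj0, hjm, hj⟩ := h1
  obtain ⟨i, rfl⟩ : ∃ i, j = i + 1 := ⟨j - 1, by omega⟩
  rw [Function.iterate_succ_apply'] at hj
  have h2 := suc_inj hω hj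
  rcases Nat.eq_zero_or_pos i with h3 | h3
  · subst h3
    exact h2
  · exfalso
    refine start_notin h ?_
    rw [e]
    exact ⟨i, h3, by omega, h2⟩

theorem strand_len {p q : Pt → ℤ} {p0 p1 : ℤ} {m' : ℕ} (hm : 0 < m) (hm' : 0 < m')
    (h : Strand p q ω p0 p1 q0 q1 v m)
    (h' : Strand p q ω p0 p1 q0 q1 v m') : m = m' := by
  rcases lt_trichotomy m m' with hlt | heq | hlt
  · have h2 := h'.pmem m hm hlt
    have := h.ends
    omega
  · exact heq
  · have h2 := h.pmem m' hm' hlt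
    have := h'.ends
    omega

theorem ends_ne (h : Strand Prod.fst Prod.snd ω Q.x0 Q.x1 q0 q1 v m) : (SW.suc ω)^[m] v ≠ v := by
  intro e
  have h1 := h.ends
  have := Q.hx
  rw [e] at h1
  omega

/-- which wall points are matched to the strand -/
theorem wall_nb (hω : ω ∈ DD V) (h : Strand Prod.fst Prod.snd ω Q.x0 Q.x1 q0 q1 v m) {z : Pt}
    (hz : z.1 = Q.x0) (hn : ω.1 z ∈ SK ω v m ∨ ω.2 z ∈ SK ω v m) :
    z = v ∨ z = (SW.suc ω)^[m] v := by
  have hv := mem_V hω h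
  have key : ∀ i, i + 1 < m → z = (SW.suc ω)^[i + 2] v ∨ z = (SW.suc ω)^[i] v →
      z = v ∨ z = (SW.suc ω)^[m] v := by
    intro i hi hzi
    rcases hzi with e | e
    · rcases (show i + 2 ≤ m by omega).lt_or_eq with h3 | h3
      · have := h.pmem (i + 2) (by omega) h3
        rw [← e] at this
        omega
      · exact Or.inr (h3 ▸ e)
    · rcases Nat.eq_zero_or_pos i with h3 | h3
      · subst h3
        exact Or.inl e
      · have := h.pmem i h3 (by omega)
        rw [← e] at this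
        omega
  rcases hn with ⟨j, hj0, hjm, hj⟩ | ⟨j, hj0, hjm, hj⟩
  · obtain ⟨i, rfl⟩ : ∃ i, j = i + 1 := ⟨j - 1, by omega⟩
    have hz' : z = ω.1 ((SW.suc ω)^[i + 1] v) := by rw [← hj, L.inv1 hω]
    refine key i hjm ?_
    rcases nb hω hv i with ⟨e1, e2⟩ | ⟨e1, e2⟩
    · exact Or.inl (hz'.trans e1)
    · exact Or.inr (hz'.trans e2)
  · obtain ⟨i, rfl⟩ : ∃ i, j = i + 1 := ⟨j - 1, by omega⟩
    have hz' : z = ω.2 ((SW.suc ω)^[i + 1] v) := by rw [← hj, L.inv2 hω]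
    refine key i hjm ?_
    rcases nb hω hv i with ⟨e1, e2⟩ | ⟨e1, e2⟩
    · exact Or.inr (hz'.trans e2)
    · exact Or.inl (hz'.trans e1)

theorem degW_start (hω : ω ∈ DD V) (h : Strand Prod.fst Prod.snd ω Q.x0 Q.x1 q0 q1 v m) :
    degW ω (SK ω v m) v = 1 := by
  classical
  have hv := mem_V hω h
  have h1 := suc_mem_SK hω h
  obtain ⟨w, hw, hwV, hn⟩ := nb0 hω hv
  have hwK : w ∉ SK ω v m := by
    rintro ⟨j, hj0, hjm, hj⟩
    have e : v = (SW.suc ω)^[j + 1] v := by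
      rw [Function.iterate_succ_apply', ← hj, hw]
    rcases (show j + 1 ≤ m by omega).lt_or_eq with h3 | h3
    · exact start_notin h ⟨j + 1, by omega, h3, e⟩
    · exact ends_ne h (h3 ▸ e.symm)
  unfold degW
  rcases hn with ⟨e1, e2⟩ | ⟨e1, e2⟩
  · rw [e1, e2, if_pos h1, if_neg hwK, add_zero]
  · rw [e1, e2, if_pos h1, if_neg hwK, zero_add]

theorem degW_end (hω : ω ∈ DD V) (h : Strand Prod.fst Prod.snd ω Q.x0 Q.x1 q0 q1 v m) :
    degW ω (SK ω v m) ((SW.suc ω)^[m] v) = 1 := by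
  classical
  have hv := mem_V hω h
  have hm := two_le hω h
  obtain ⟨i, hi⟩ : ∃ i, m = i + 1 := ⟨m - 1, by omega⟩
  have h1 : (SW.suc ω)^[i] v ∈ SK ω v m := ⟨i, by omega, by omega, rfl⟩
  have h2 : (SW.suc ω)^[i + 2] v ∉ SK ω v m := by
    rintro ⟨j, hj0, hjm, hj⟩
    obtain ⟨l, rfl⟩ : ∃ l, j = l + 1 := ⟨j - 1, by omega⟩
    rw [Function.iterate_succ_apply' (SW.suc ω) (i + 1),
      Function.iterate_succ_apply' (SW.suc ω) l] at hj
    have e := suc_inj hω hj
    rw [← hi] at e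
    rcases Nat.eq_zero_or_pos l with h3 | h3
    · subst h3
      exact ends_ne h e
    · exact end_notin h ⟨l, h3, by omega, e⟩
  unfold degW
  have hn := nb hω hv i
  rw [← hi] at hn
  rcases hn with ⟨e1, e2⟩ | ⟨e1, e2⟩
  · rw [e1, e2, if_pos h1, if_neg h2, zero_add]
  · rw [e1, e2, if_pos h1, if_neg h2, add_zero]

theorem degW_other {K : Set Pt} {z : Pt} (h : ¬ (ω.1 z ∈ K ∨ ω.2 z ∈ K)) : degW ω K z = 0 := by
  classical
  push Not at h
  unfold degW
  rw [if_neg h.1, if_neg h.2, add_zero]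

theorem DL_strand (hω : ω ∈ DD V) (h : Strand Prod.fst Prod.snd ω Q.x0 Q.x1 q0 q1 v m)
    (h0 : Q.y0 ≤ q0) (h1 : q1 ≤ Q.yc) : Q.DL ω (SK ω v m) = 1 := by
  classical
  have hyc := Q.hy1
  have hx := Q.hx
  -- the end on the left side
  obtain ⟨z, hz1, hz2, hz3, hz4⟩ : ∃ z : Pt, z.1 = Q.x0 ∧ (Q.y0 ≤ z.2 ∧ z.2 ≤ Q.y1) ∧
      degW ω (SK ω v m) z = 1 ∧ ∀ z' : Pt, z'.1 = Q.x0 → (z' = v ∨ z' = (SW.suc ω)^[m] v) →
        z' = z := by
    have a0 := h.qmem 0 (Nat.zero_le _)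
    have am := h.qmem m le_rfl
    simp only [Function.iterate_zero, id_eq] at a0
    rcases h.ends with ⟨h2, h3⟩ | ⟨h2, h3⟩
    · refine ⟨v, h2, by omega, degW_start hω h, ?_⟩
      rintro z' hz' (rfl | rfl)
      · rfl
      · omega
    · refine ⟨(SW.suc ω)^[m] v, h3, by omega, degW_end hω h, ?_⟩
      rintro z' hz' (rfl | rfl)
      · omega
      · rfl
  unfold Cap.DL
  have hz : z = (Q.x0, z.2) := by rw [← hz1]
  rw [Finset.sum_eq_single z.2]
  · rw [← hz]
    exact hz3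
  · intro y _ hy
    refine degW_other (fun hn => hy ?_)
    have := hz4 _ rfl (wall_nb hω h (z := (Q.x0, y)) rfl hn)
    rw [← this]
  · intro hn
    exact absurd (mem_Icc.2 hz2) hn

/-- **(D1)** a crossing strand is a good crossing of the cap -/
theorem good_strand (hω : ω ∈ DD V) (h : Strand Prod.fst Prod.snd ω Q.x0 Q.x1 q0 q1 v m)
    (h0 : Q.y0 ≤ q0) (h1 : q1 ≤ Q.yc) : Q.Good V ω (SK ω v m) where
  comp := ⟨SW.suc ω v, suc_mem hω (mem_V hω h), mid_notW h h0 h1 (suc_mem_SK hω h),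
    (compW_strand hω h h0 h1).symm⟩
  reg := fun _ hu => mid_reg h h0 h1 hu
  odd := DL_strand hω h h0 h1

/-- the strand belongs to the loop of `v` -/
theorem SK_sub_comp : SK ω v m ⊆ comp ω v := by
  rintro u ⟨j, _, _, rfl⟩
  exact SW.same_iter ω v j

/-- horizontal edges of the strand -/
theorem hedge_iff (hω : ω ∈ DD V) (h : Strand Prod.fst Prod.snd ω Q.x0 Q.x1 q0 q1 v m)
    {X Y : ℤ} : hedge ω (SK ω v m) X Y ↔
      ∃ j < m, ((SW.suc ω)^[j] v).2 = Y ∧ ((SW.suc ω)^[j + 1] v).2 = Y ∧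
        min ((SW.suc ω)^[j] v).1 ((SW.suc ω)^[j + 1] v).1 = X ∧
        max ((SW.suc ω)^[j] v).1 ((SW.suc ω)^[j + 1] v).1 = X + 1 := by
  have hv := mem_V hω h
  have hm := two_le hω h
  constructor
  · intro hh
    -- an edge from a point of the strand to another point
    have key : ∀ u w : Pt, u ∈ SK ω v m → (ω.1 u = w ∨ ω.2 u = w) → u.2 = Y → w.2 = Y →
        min u.1 w.1 = X → max u.1 w.1 = X + 1 →
        ∃ j < m, ((SW.suc ω)^[j] v).2 = Y ∧ ((SW.suc ω)^[j + 1] v).2 = Y ∧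
        min ((SW.suc ω)^[j] v).1 ((SW.suc ω)^[j + 1] v).1 = X ∧
        max ((SW.suc ω)^[j] v).1 ((SW.suc ω)^[j + 1] v).1 = X + 1 := by
      rintro u w ⟨j, hj0, hjm, rfl⟩ hw hu2 hw2 hmin hmax
      obtain ⟨i, rfl⟩ : ∃ i, j = i + 1 := ⟨j - 1, by omega⟩
      have key' : w = (SW.suc ω)^[i + 2] v ∨ w = (SW.suc ω)^[i] v := by
        rcases nb hω hv i with ⟨e1, e2⟩ | ⟨e1, e2⟩
        · rcases hw with hw | hw
          · exact Or.inl (hw.symm.trans e1)
          · exact Or.inr (hw.symm.trans e2)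
        · rcases hw with hw | hw
          · exact Or.inr (hw.symm.trans e2)
          · exact Or.inl (hw.symm.trans e1)
      rcases key' with rfl | rfl
      · exact ⟨i + 1, hjm, hu2, hw2, hmin, hmax⟩
      · exact ⟨i, by omega, hw2, hu2, by rw [min_comm]; exact hmin, by rw [max_comm]; exact hmax⟩
    obtain ⟨hK, he⟩ := hh
    rcases hK with hK | hK
    · refine key (X, Y) (X + 1, Y) hK he rfl rfl ?_ ?_ <;> simp
    · refine key (X + 1, Y) (X, Y) hK ?_ rfl rfl ?_ ?_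
      · rcases he with he | he
        · exact Or.inl (by rw [← he, L.inv1 hω])
        · exact Or.inr (by rw [← he, L.inv2 hω])
      · simp
      · simp
  · rintro ⟨j, hj, h2, h3, h4, h5⟩
    have hK : (SW.suc ω)^[j] v ∈ SK ω v m ∨ (SW.suc ω)^[j + 1] v ∈ SK ω v m := by
      rcases Nat.eq_zero_or_pos j with h6 | h6
      · exact Or.inr ⟨j + 1, by omega, by omega, rfl⟩
      · exact Or.inl ⟨j, h6, hj, rfl⟩
    have he : ω.1 ((SW.suc ω)^[j] v) = (SW.suc ω)^[j + 1] v ∨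
        ω.2 ((SW.suc ω)^[j] v) = (SW.suc ω)^[j + 1] v := by
      rw [Function.iterate_succ_apply']
      unfold SW.suc
      split_ifs
      · exact Or.inl rfl
      · exact Or.inr rfl
    set a := (SW.suc ω)^[j] v with ha
    set b := (SW.suc ω)^[j + 1] v with hb
    rcases le_total a.1 b.1 with h6 | h6
    · rw [min_eq_left h6] at h4
      rw [max_eq_right h6] at h5
      have ea : a = (X, Y) := Prod.ext h4 h2
      have eb : b = (X + 1, Y) := Prod.ext h5 h3
      rw [ea, eb] at hK he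
      exact ⟨hK, he⟩
    · rw [min_eq_right h6] at h4
      rw [max_eq_left h6] at h5
      have ea : a = (X + 1, Y) := Prod.ext h5 h2
      have eb : b = (X, Y) := Prod.ext h4 h3
      rw [ea, eb] at hK he
      refine ⟨hK.symm, ?_⟩
      rcases he with he | he
      · exact Or.inl (by rw [← he, L.inv1 hω])
      · exact Or.inr (by rw [← he, L.inv2 hω])

/-- **(D4)** the two tops agree -/
theorem topS_eq (hω : ω ∈ DD V) (h : Strand Prod.fst Prod.snd ω Q.x0 Q.x1 q0 q1 v m) (X : ℤ) :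
    topS Prod.fst Prod.snd ω v m X = topE ω (SK ω v m) X := by
  unfold topS topE
  congr 1
  ext Y
  exact (hedge_iff hω h).symm

end

end Vale.Agent.P155.D877
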