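import Vale.Agent.P155.D877.Refl
import Vale.Agent.P155.H904.Dist

/-!
# P155, TIGHT: FAT from its upper half

The loop of a crossing strand surrounds the faces above the strand or the faces below it.
-/

namespace Vale.Agent.P155.D877

open Finset Vale.Agent.P155.T802 Vale.Agent.P155.Q1 Vale.Agent.P155.Skel

variable {V : Finset Pt} {ω : Conf} {Q : Cap} {K : Set Pt}

/-- below the lowest horizontal edge the parity is `0` -/
theorem pr_below (hω : ω ∈ DD V) (g : Q.Good V ω K) {x b : ℤ} (hb : b ≤ Q.y1)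
    (hno : ∀ t, t < b → ¬ hedge ω K x t) : Q.pr ω K (x, b - 1) = 0 := by
  have hc := g.closed hω
  have key : ∀ n : ℕ, Q.y0 - 1 + n < b → Q.pr ω K (x, Q.y0 - 1 + n) = 0 := by
    intro n
    induction n with
    | zero => intro _; exact pr_out hω hc g.reg (by simp)
    | succ n ih =>
      intro hn
      push_cast at hn
      have e := par_up (Cap.even hω hc) x (Q.y0 - 1 + ((n + 1 : ℕ) : ℤ))
      have e' : Q.y0 - 1 + ((n + 1 : ℕ) : ℤ) - 1 = Q.y0 - 1 + n := by push_cast; ring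
      rw [e'] at e
      have ih' := ih (by omega)
      unfold Cap.pr at ih' ⊢
      rw [e, ih', zero_add]
      unfold Cap.fB
      rw [eB_hedge (hno _ (by push_cast; omega)), zero_add]
      unfold Cap.wB
      rw [if_neg (by simp only; push_cast; omega)]
  by_cases h : Q.y0 ≤ b
  · have := key (b - Q.y0).toNat (by rw [Int.toNat_of_nonneg (by omega)]; omega)
    rwa [Int.toNat_of_nonneg (by omega), show Q.y0 - 1 + (b - Q.y0) = b - 1 by ring] at this
  · exact pr_out hω hc g.reg (by simp only; omega)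

/-- the cap over a lattice rectangle -/
def mkCap (p0 p1 q0 q1 : ℤ) (h1 : p0 + 2 ≤ p1) (h2 : q0 ≤ q1) : Cap where
  x0 := p0
  x1 := p1
  y0 := q0
  y1 := q1 + 2
  yc := q1
  xS := p0 + 1
  hS0 := by omega
  hS1 := by omega
  hy0 := h2
  hy1 := by omega

theorem inner_rf (ω : Conf) (v : Pt) (m : ℕ) : inner (rfc ω) (rf v) m = rfS (inner ω v m) := by
  ext u
  constructor
  · rintro ⟨j, h1, h2, rfl⟩
    refine ⟨j, h1, h2, ?_⟩
    rw [iter_rf, rf_rf]
  · rintro ⟨j, h1, h2, h⟩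
    refine ⟨j, h1, h2, ?_⟩
    rw [iter_rf, ← h, rf_rf]

theorem hedge_rf (ω : Conf) (K : Set Pt) (x y : ℤ) :
    hedge (rfc ω) (rfS K) x y ↔ hedge ω K x (-y) := by
  unfold hedge rfc rfm
  have e1 : ∀ z : ℤ, rf (z, y) = (z, -y) := fun z => rfl
  have e2 : (x + 1, y) = rf (x + 1, -y) := by
    unfold rf
    simp
  simp only [mem_rfS, e1]
  rw [e2, rf_inj, rf_inj]

/-- the loop of a crossing strand surrounds one of its two sides -/
theorem updown (hω : ω ∈ DD V) {p0 p1 q0 q1 : ℤ} {v : Pt} {m : ℕ}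
    (hs : Strand Prod.fst Prod.snd ω p0 p1 q0 q1 v m) (h2 : p0 + 2 ≤ p1) :
    Up ω v m p0 p1 ∨ Up (rfc ω) (rf v) m p0 p1 := by
  have hq : q0 ≤ q1 := (hs.qmem 0 (Nat.zero_le _)).1.trans (hs.qmem 0 (Nat.zero_le _)).2
  set Q := mkCap p0 p1 q0 q1 h2 hq with hQ
  have hs1 : Strand Prod.fst Prod.snd ω Q.x0 Q.x1 q0 q1 v m := hs
  have g := st_good (Q := Q) hω le_rfl le_rfl hs1
  have hm := st_two hω hs1
  have hA : comp ω v ∈ Loops ω := ⟨v, hs.loop, rfl⟩
  have hsuc : SW.suc ω v ∈ inner ω v m := ⟨1, by omega, by omega, rfl⟩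
  -- the reflected strand
  have hω' := mem_DD_rf.2 hω
  have hs' := strand_rf hs
  set Q' := mkCap p0 p1 (-q1) (-q0) h2 (by omega) with hQ'
  have hs1' : Strand Prod.fst Prod.snd (rfc ω) Q'.x0 Q'.x1 (-q1) (-q0) (rf v) m := hs'
  have g' := st_good (Q := Q') hω' le_rfl le_rfl hs1'
  have hedge_touch : ∀ X y : ℤ, hedge ω (inner ω v m) X y →
      Touch (inner ω v m) (X, y) ∧ Touch (inner ω v m) (X, y - 1) := by
    intro X y h
    rcases h.1 with h | h
    · exact ⟨touch_iff.2 ⟨_, h, by simp [facesAt]⟩, touch_iff.2 ⟨_, h, by simp [facesAt]⟩⟩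
    · exact ⟨touch_iff.2 ⟨_, h, by simp [facesAt]⟩, touch_iff.2 ⟨_, h, by simp [facesAt]⟩⟩
  by_cases hU : Up ω v m p0 p1
  · exact Or.inl hU
  · right
    unfold Up at hU
    push Not at hU
    obtain ⟨X0, hX0, hX0', hn⟩ := hU
    intro X hX hX'
    -- the upper face
    have t0 := g.topE_spec hω (x := X0) hX0 hX0'
    rw [st_top (Q := Q) hω hs1] at hn
    have hb0 := hedge_reg g.reg t0.1
    have hyc : Q.yc + 2 = Q.y1 := rfl
    have a0 : Q.pr ω (inner ω v m) (X0, topE ω (inner ω v m) X0) = 1 :=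
      g.above hω hX0 hX0' (by omega) le_rfl
    -- the lower face
    rw [st_top (Q := Q') hω' hs1']
    obtain ⟨t1, t2⟩ := g'.topE_spec hω' (x := X) hX hX'
    set t := topE (rfc ω) (inner (rfc ω) (rf v) m) X with ht
    rw [inner_rf] at t1 t2
    rw [hedge_rf] at t1
    have hb1 := hedge_reg g.reg t1
    have a1 : Q.pr ω (inner ω v m) (X, -t - 1) = 0 := by
      refine pr_below hω g (by omega) (fun y hy hh => ?_)
      have := t2 (-y) (by rw [hedge_rf, neg_neg]; exact hh)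
      omega
    have key := other_side hω g hA hsuc (SW.same_suc ω v) (hedge_touch _ _ t0.1).1
      (hedge_touch _ _ t1).2 (by rw [a0, a1]; decide)
    have hs2 : surr ω (comp ω v) (X, -t - 1) := by
      by_contra hcon
      exact key (iff_of_false hn hcon)
    have e : rg (X, t) = (X, -t - 1) := by
      unfold rg
      simp only [Prod.mk.injEq, true_and]
      ring
    rw [comp_rf]
    have := (surr_rf hω hA (rg (X, t))).2 (by rw [e]; exact hs2)
    rwa [rg_rg] at this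

theorem exists_notMem (T : Temp) : ∃ y, y ∉ T.faceSet := by
  by_contra h
  push Not at h
  have : T.faceSet = Set.univ := Set.eq_univ_of_forall h
  exact Set.infinite_univ (this ▸ A1.faceSet_finite T)

theorem area_finite (ω : Conf) (v : Pt) (e : ℝ) (p0 p1 q0 q1 : ℤ) :
    (Area Prod.fst Prod.snd ω v e p0 p1 q0 q1).Finite := by
  refine (Set.Finite.prod (Set.finite_Icc ⌊(p0 : ℝ) - e⌋ ⌈(p1 : ℝ) + e⌉)
    (Set.finite_Icc ⌊(q0 : ℝ) - e⌋ ⌈(q1 : ℝ) + e⌉)).subset ?_
  rintro ⟨x, y⟩ ⟨_, h2, h3, h4, h5⟩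
  simp only at h2 h3 h4 h5
  refine ⟨⟨?_, ?_⟩, ?_, ?_⟩
  · have := (Int.floor_le ((p0 : ℝ) - e)).trans h2
    exact_mod_cast this
  · have := (show (x : ℝ) ≤ p1 + e by linarith).trans (Int.le_ceil _)
    exact_mod_cast this
  · have := (Int.floor_le ((q0 : ℝ) - e)).trans h4
    exact_mod_cast this
  · have := (show (y : ℝ) ≤ q1 + e by linarith).trans (Int.le_ceil _)
    exact_mod_cast this

theorem area_mono {ω : Conf} {v : Pt} {e e' : ℝ} (h : e ≤ e') (p0 p1 q0 q1 : ℤ) :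
    Set.ncard (Area Prod.fst Prod.snd ω v e p0 p1 q0 q1) ≤
      Set.ncard (Area Prod.fst Prod.snd ω v e' p0 p1 q0 q1) := by
  refine Set.ncard_le_ncard ?_ (area_finite _ _ _ _ _ _ _)
  rintro f ⟨h1, h2, h3, h4, h5⟩
  exact ⟨h1, by linarith, by linarith, by linarith, by linarith⟩

theorem lrect_mono {p q : Pt → ℤ} {T : Temp} {R : ℕ} {c c' : ℝ} {p0 p1 q0 q1 : ℤ}
    (h : LRect p q T R c p0 p1 q0 q1) (hc : c' ≤ c) : LRect p q T R c' p0 p1 q0 q1 := by
  have h1 : c' * R ≤ c * R := by gcongr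
  exact ⟨h1.trans h.hp, h1.trans h.hq, fun z a1 a2 a3 a4 => h1.trans (h.deep z a1 a2 a3 a4)⟩

theorem lrect_rf {T : Temp} {R : ℕ} {c : ℝ} (hc : 0 < c) (hR : 8 ≤ c * R) {p0 p1 q0 q1 : ℤ}
    (h : LRect Prod.fst Prod.snd T R c p0 p1 q0 q1) (h1 : 1 ≤ R) :
    LRect Prod.fst Prod.snd (rfT T) (R + 1) (c / 4) p0 p1 (-q1) (-q0) := by
  have hRr : (1 : ℝ) ≤ R := by exact_mod_cast h1
  have e1 : c / 4 * ((R + 1 : ℕ) : ℝ) ≤ c * R - 1 := by
    push_cast
    nlinarith
  have e2 : c / 4 * ((R + 1 : ℕ) : ℝ) ≤ c * R := by linarith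
  refine ⟨e2.trans h.hp, ?_, ?_⟩
  · push_cast at e2 ⊢
    have := h.hq
    linarith
  · intro z a1 a2 a3 a4
    have e3 := h.deep (rf z) a1 a2 (by unfold rf; simp only; omega) (by unfold rf; simp only; omega)
    have e4 := H904.dF_lip (exists_notMem T) (rf z) (rg z)
    have e5 : dn (rf z) (rg z) ≤ 1 := by
      rw [H904.dn_le_iff]
      unfold rf rg
      simp only [sub_self, abs_zero, Nat.cast_one, zero_le_one, true_and]
      rw [show -z.2 - (-1 - z.2) = 1 by ring, abs_one]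
    have e6 : dF (rfT T).faceSet z = dF T.faceSet (rg z) := by
      have := dF_rf T (rg z)
      rwa [rg_rg] at this
    rw [e6]
    have e7 : (dF T.faceSet (rf z) : ℝ) ≤ dF T.faceSet (rg z) + 1 := by
      exact_mod_cast e4.trans (by omega)
    linarith

/-- **FAT from its upper half** -/
theorem lf_of_up (h : LFup) : LF Prod.fst Prod.snd := by
  intro c ε hc hε
  obtain ⟨α, hα, R0, h1⟩ := h (c / 4) (ε / 2) (by positivity) (by positivity)
  refine ⟨α, hα, max (max R0 1) ⌈8 / c⌉₊, fun R hR T hT p0 p1 q0 q1 hr => ?_⟩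
  have hR0 : R0 ≤ R := (le_max_left _ _).trans ((le_max_left _ _).trans hR)
  have hR1 : 1 ≤ R := (le_max_right _ _).trans ((le_max_left _ _).trans hR)
  have hR2 : 8 / c ≤ (R : ℝ) := (Nat.le_ceil _).trans (by exact_mod_cast (le_max_right _ _).trans hR)
  have hcR : 8 ≤ c * R := by
    rw [div_le_iff₀ hc] at hR2
    linarith
  have hRr : (1 : ℝ) ≤ R := by exact_mod_cast hR1
  have b1 := h1 R hR0 T hT p0 p1 q0 q1 (lrect_mono hr (by linarith))
  have b2 := h1 (R + 1) (by omega) (rfT T) (fits_rf hT) p0 p1 (-q1) (-q0) (lrect_rf hc hcR hr hR1)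
  rw [V_rf, Pr_rf] at b2
  have hpp : p0 + 2 ≤ p1 := by
    have := hr.hp
    have h8 : (8 : ℝ) ≤ p1 - p0 := hcR.trans this
    have : (8 : ℤ) ≤ p1 - p0 := by exact_mod_cast h8
    omega
  have hsum := (E.Pr_or_le T.V _ _).trans (add_le_add b1 b2)
  rw [add_halves] at hsum
  refine (E.Pr_mono (fun ω hω hbad => ?_)).trans hsum
  obtain ⟨v, m, hs, ha⟩ := hbad
  rcases updown hω hs hpp with hU | hD
  · left
    refine ⟨v, m, hs, hU, lt_of_le_of_lt ?_ ha⟩
    exact_mod_cast area_mono (by nlinarith) p0 p1 q0 q1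
  · right
    refine ⟨rf v, m, strand_rf hs, hD, ?_⟩
    have hinj : Function.Injective rg := fun _ _ h => rg_inj.1 h
    rw [area_rf hω hs.loop, Set.ncard_image_of_injective _ hinj]
    refine lt_of_le_of_lt ?_ (ha.trans_le ?_)
    · exact_mod_cast area_mono (by push_cast; nlinarith) p0 p1 q0 q1
    · push_cast
      gcongr
      linarith

end Vale.Agent.P155.D877
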