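import Vale.Agent.P155.D877.Lat

/-!
# P155, TIGHT: reflection of the lattice

`rf (x, y) = (x, -y)` on vertices, `rg (x, y) = (x, -1 - y)` on faces.
-/

namespace Vale.Agent.P155.D877

open Finset Vale.Agent.P155.T802 Vale.Agent.P155.Q1 Vale.Agent.P155.Skel

/-- reflection of vertices -/
def rf (v : Pt) : Pt := (v.1, -v.2)

/-- reflection of faces -/
def rg (f : Pt) : Pt := (f.1, -1 - f.2)

@[simp] theorem rf_rf (v : Pt) : rf (rf v) = v := by
  unfold rf
  simp

@[simp] theorem rg_rg (v : Pt) : rg (rg v) = v := by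
  unfold rg
  simp

theorem rf_inj {u v : Pt} : rf u = rf v ↔ u = v :=
  ⟨fun h => by have := congrArg rf h; simpa using this, fun h => by rw [h]⟩

theorem rg_inj {u v : Pt} : rg u = rg v ↔ u = v :=
  ⟨fun h => by have := congrArg rg h; simpa using this, fun h => by rw [h]⟩

theorem rf_eq {u v : Pt} : rf u = v ↔ u = rf v := ⟨fun h => by rw [← h, rf_rf], fun h => by rw [h, rf_rf]⟩

/-- reflection as an equivalence -/
def rfE : Pt ≃ Pt := ⟨rf, rf, rf_rf, rf_rf⟩

/-- reflection of a matching -/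
def rfm (m : Pt → Pt) : Pt → Pt := fun v => rf (m (rf v))

theorem rfm_rfm (m : Pt → Pt) : rfm (rfm m) = m := by
  funext v
  simp [rfm]

/-- reflection of a configuration -/
def rfc (ω : Conf) : Conf := (rfm ω.1, rfm ω.2)

theorem rfc_rfc (ω : Conf) : rfc (rfc ω) = ω := by
  unfold rfc
  simp only [rfm_rfm]

/-- reflection of a vertex set -/
def rfV (V : Finset Pt) : Finset Pt := V.map rfE.toEmbedding

theorem mem_rfV {V : Finset Pt} {v : Pt} : v ∈ rfV V ↔ rf v ∈ V := by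
  unfold rfV
  rw [Finset.mem_map_equiv]
  rfl

theorem rfV_rfV (V : Finset Pt) : rfV (rfV V) = V := by
  ext v
  rw [mem_rfV, mem_rfV, rf_rf]

theorem adj_rf {u v : Pt} : Adj (rf u) (rf v) ↔ Adj u v := by
  unfold Adj rf
  simp only
  rw [show -u.2 - -v.2 = -(u.2 - v.2) by ring, abs_neg]

theorem white_rf {v : Pt} : White (rf v) ↔ White v := by
  unfold White rf
  simp only
  rw [← sub_eq_add_neg, Int.odd_sub, Int.odd_add]

theorem isPM_rf {V : Finset Pt} {m : Pt → Pt} (h : IsPM V m) : IsPM (rfV V) (rfm m) where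
  invol := fun v => by
    unfold rfm
    rw [rf_rf, h.invol, rf_rf]
  off := fun v hv => by
    unfold rfm
    rw [h.off _ (fun hh => hv (mem_rfV.2 hh)), rf_rf]
  adj := fun v hv => by
    unfold rfm
    rw [← adj_rf, rf_rf]
    exact h.adj _ (mem_rfV.1 hv)

theorem isPM_rf_iff {V : Finset Pt} {m : Pt → Pt} : IsPM (rfV V) (rfm m) ↔ IsPM V m := by
  refine ⟨fun h => ?_, isPM_rf⟩
  have := isPM_rf h
  rwa [rfV_rfV, rfm_rfm] at this

theorem mem_DD_rf {V : Finset Pt} {ω : Conf} : rfc ω ∈ DD (rfV V) ↔ ω ∈ DD V := by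
  unfold DD
  rw [Finset.mem_product, Finset.mem_product, mem_PM, mem_PM, mem_PM, mem_PM]
  exact and_congr isPM_rf_iff isPM_rf_iff

/-- reflection of configurations as an equivalence -/
def rfcE : Conf ≃ Conf := ⟨rfc, rfc, rfc_rfc, rfc_rfc⟩

theorem DD_rf (V : Finset Pt) : DD (rfV V) = (DD V).map rfcE.toEmbedding := by
  ext ω
  rw [Finset.mem_map_equiv]
  have := mem_DD_rf (V := V) (ω := rfc ω)
  rw [rfc_rfc] at this
  exact this

theorem Ex_rf {E : Type*} [AddCommMonoid E] [Module ℝ E] (V : Finset Pt) (g : Conf → E) :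
    Ex (rfV V) g = Ex V (fun ω => g (rfc ω)) := by
  unfold Ex
  rw [DD_rf, Finset.card_map, Finset.sum_map]
  rfl

theorem Pr_rf (V : Finset Pt) (p : Conf → Prop) : Pr (rfV V) p = Pr V (fun ω => p (rfc ω)) := by
  unfold Pr
  rw [Ex_rf]
  rfl

theorem suc_rf (ω : Conf) (v : Pt) : SW.suc (rfc ω) (rf v) = rf (SW.suc ω v) := by
  unfold SW.suc
  by_cases h : White v
  · rw [if_pos h, if_pos (white_rf.2 h)]
    unfold rfc rfm
    simp only [rf_rf]
  · rw [if_neg h, if_neg (fun hh => h (white_rf.1 hh))]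
    unfold rfc rfm
    simp only [rf_rf]

theorem iter_rf (ω : Conf) (v : Pt) (j : ℕ) :
    (SW.suc (rfc ω))^[j] (rf v) = rf ((SW.suc ω)^[j] v) := by
  induction j with
  | zero => rfl
  | succ j ih => rw [Function.iterate_succ_apply', Function.iterate_succ_apply', ih, suc_rf]

theorem loop_rf {ω : Conf} {v : Pt} :
    (rfc ω).1 (rf v) ≠ (rfc ω).2 (rf v) ↔ ω.1 v ≠ ω.2 v := by
  unfold rfc rfm
  simp only [rf_rf]
  rw [ne_eq, ne_eq, rf_inj]

theorem strand_rf {ω : Conf} {p0 p1 q0 q1 : ℤ} {v : Pt} {m : ℕ}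
    (h : Strand Prod.fst Prod.snd ω p0 p1 q0 q1 v m) :
    Strand Prod.fst Prod.snd (rfc ω) p0 p1 (-q1) (-q0) (rf v) m := by
  refine ⟨loop_rf.2 h.loop, fun j hj => ?_, fun j h1 h2 => ?_, ?_⟩
  · have := h.qmem j hj
    rw [iter_rf]
    unfold rf
    simp only
    omega
  · have := h.pmem j h1 h2
    rw [iter_rf]
    exact this
  · have := h.ends
    rw [iter_rf]
    exact this

theorem same_rf' {ω : Conf} {u v : Pt} (h : Same ω u v) : Same (rfc ω) (rf u) (rf v) := by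
  induction h with
  | refl => exact Relation.ReflTransGen.refl
  | @tail b c _ hbc ih =>
    refine Relation.ReflTransGen.tail ih ?_
    unfold rfc rfm
    simp only [rf_rf, rf_inj]
    exact hbc

theorem same_rf {ω : Conf} {u v : Pt} : Same (rfc ω) (rf u) (rf v) ↔ Same ω u v := by
  refine ⟨fun h => ?_, same_rf'⟩
  have := same_rf' h
  rwa [rfc_rfc, rf_rf, rf_rf] at this

/-- reflection of a set -/
def rfS (A : Set Pt) : Set Pt := {u | rf u ∈ A}

theorem mem_rfS {A : Set Pt} {u : Pt} : u ∈ rfS A ↔ rf u ∈ A := Iff.rfl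

theorem comp_rf (ω : Conf) (v : Pt) : comp (rfc ω) (rf v) = rfS (comp ω v) := by
  ext u
  have := same_rf (ω := ω) (u := v) (v := rf u)
  rw [rf_rf] at this
  exact this

/-- **surrounded faces** -/
theorem surr_rf {V : Finset Pt} {ω : Conf} (hω : ω ∈ DD V) {A : Set Pt} (hA : A ∈ Loops ω)
    (f : Pt) : surr (rfc ω) (rfS A) (rg f) ↔ surr ω A f := by
  have key : ∀ j, vedgeL (rfc ω) (rfS A) j (-1 - f.2) ↔ vedgeL ω A j f.2 := by
    intro j
    unfold vedgeL rfc rfm
    have e1 : rf (j, -1 - f.2) = (j, f.2 + 1) := by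
      unfold rf
      simp only [Prod.mk.injEq, true_and]
      ring
    have e2 : (j, -1 - f.2 + 1) = rf (j, f.2) := by
      unfold rf
      simp only [Prod.mk.injEq, true_and]
      ring
    simp only [mem_rfS, e1, e2, rf_inj]
    constructor
    · rintro ⟨h1, h2 | h2⟩
      · refine ⟨h2 ▸ L.loop_m1 hA h1, Or.inl ?_⟩
        rw [← h2, L.inv1 hω]
      · refine ⟨h2 ▸ L.loop_m2 hA h1, Or.inr ?_⟩
        rw [← h2, L.inv2 hω]
    · rintro ⟨h1, h2 | h2⟩
      · refine ⟨h2 ▸ L.loop_m1 hA h1, Or.inl ?_⟩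
        rw [← h2, L.inv1 hω]
      · refine ⟨h2 ▸ L.loop_m2 hA h1, Or.inr ?_⟩
        rw [← h2, L.inv2 hω]
  unfold surr
  have e : {j : ℤ | j ≤ (rg f).1 ∧ vedgeL (rfc ω) (rfS A) j (rg f).2} =
      {j : ℤ | j ≤ f.1 ∧ vedgeL ω A j f.2} := by
    ext j
    exact and_congr Iff.rfl (key j)
  rw [e]

/-! ### Temperleyan graphs -/

/-- reflection of a lattice cycle -/
def rfγ (γ : LatCycle) : LatCycle where
  n := γ.n
  hn := γ.hn
  c := fun i => rf (γ.c i)
  inj := fun _ _ h => γ.inj (rf_inj.1 h)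
  adj := fun i => adj_rf.2 (γ.adj i)

theorem edge_rf (γ : LatCycle) (u v : Pt) : (rfγ γ).edge (rf u) (rf v) ↔ γ.edge u v := by
  unfold LatCycle.edge rfγ
  simp only [rf_inj]

theorem inside_rf (γ : LatCycle) (f : Pt) : (rfγ γ).inside (rg f) ↔ γ.inside f := by
  have key : ∀ j, (rfγ γ).vedge j (-1 - f.2) ↔ γ.vedge j f.2 := by
    intro j
    rw [LatCycle.vedge_iff, LatCycle.vedge_iff]
    have e1 : (j, -1 - f.2) = rf (j, f.2 + 1) := by
      unfold rf
      simp only [Prod.mk.injEq, true_and]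
      ring
    have e2 : (j, -1 - f.2 + 1) = rf (j, f.2) := by
      unfold rf
      simp only [Prod.mk.injEq, true_and]
      ring
    rw [e1, e2, edge_rf]
    exact LatCycle.edge_comm
  unfold LatCycle.inside
  have e : {j : ℤ | j ≤ (rg f).1 ∧ (rfγ γ).vedge j (rg f).2} =
      {j : ℤ | j ≤ f.1 ∧ γ.vedge j f.2} := by
    ext j
    exact and_congr Iff.rfl (key j)
  rw [e]

/-- reflection of a Temperleyan graph -/
def rfT (T : Temp) : Temp := ⟨rfγ T.γ, T.i0⟩

theorem cells_rf (T : Temp) (f : Pt) : rg f ∈ (rfT T).cells ↔ f ∈ T.cells := inside_rf T.γ f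

theorem v0_rf (T : Temp) : (rfT T).v0 = rf T.v0 := by
  unfold Temp.v0 rfT rfγ rf
  simp only [Prod.mk.injEq, true_and]
  ring

theorem closedVerts_rf' {T : Temp} {v : Pt} (h : v ∈ T.closedVerts) :
    rf v ∈ (rfT T).closedVerts := by
  obtain ⟨f, hf, h1, h2, h3, h4⟩ := h
  refine ⟨rg f, (cells_rf T f).2 hf, h1, h2, ?_, ?_⟩
  · unfold rf rg
    simp only
    omega
  · unfold rf rg
    simp only
    omega

theorem rfγ_rfγ (γ : LatCycle) : rfγ (rfγ γ) = γ := by
  obtain ⟨n, hn, c, inj, adj⟩ := γ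
  unfold rfγ
  simp only [rf_rf]

theorem rfT_rfT (T : Temp) : rfT (rfT T) = T := by
  obtain ⟨γ, i0⟩ := T
  unfold rfT
  simp only
  congr 1
  exact rfγ_rfγ γ

theorem closedVerts_rf (T : Temp) (v : Pt) : rf v ∈ (rfT T).closedVerts ↔ v ∈ T.closedVerts := by
  refine ⟨fun h => ?_, closedVerts_rf'⟩
  have := closedVerts_rf' h
  rwa [rfT_rfT, rf_rf] at this

theorem faceSet_rf' {T : Temp} {v : Pt} (h : v ∈ T.faceSet) : rg v ∈ (rfT T).faceSet := by
  obtain ⟨f, hf, h1, h2, h3, h4⟩ := h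
  refine ⟨rg f, (cells_rf T f).2 hf, h1, h2, ?_, ?_⟩
  · unfold rg
    simp only
    omega
  · unfold rg
    simp only
    omega

theorem faceSet_rf (T : Temp) (v : Pt) : rg v ∈ (rfT T).faceSet ↔ v ∈ T.faceSet := by
  refine ⟨fun h => ?_, faceSet_rf'⟩
  have := faceSet_rf' h
  rwa [rfT_rfT, rg_rg] at this

theorem V_rf (T : Temp) : (rfT T).V = rfV T.V := by
  have hset : ((rfT T).closedVerts \ {(rfT T).v0}) = rfE '' (T.closedVerts \ {T.v0}) := by
    ext v
    rw [Equiv.image_eq_preimage_symm]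
    simp only [Set.mem_sdiff, Set.mem_preimage, Set.mem_singleton_iff]
    show _ ↔ (rf v ∈ _ ∧ ¬ rf v = _)
    rw [← closedVerts_rf T (rf v), rf_rf, v0_rf, rf_eq]
  unfold Temp.V
  by_cases h : (T.closedVerts \ {T.v0}).Finite
  · have h' : ((rfT T).closedVerts \ {(rfT T).v0}).Finite := by
      rw [hset]
      exact h.image _
    rw [dif_pos h, dif_pos h']
    ext v
    rw [mem_rfV, Set.Finite.mem_toFinset, Set.Finite.mem_toFinset, hset,
      Equiv.image_eq_preimage_symm]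
    rfl
  · have h' : ¬ ((rfT T).closedVerts \ {(rfT T).v0}).Finite := by
      intro h'
      rw [hset] at h'
      exact h (Set.Finite.of_finite_image h' rfE.injective.injOn)
    rw [dif_neg h, dif_neg h']
    rfl

theorem dn_rg (u v : Pt) : dn (rg u) (rg v) = dn u v := by
  unfold dn dinf rg
  simp only
  rw [show -1 - u.2 - (-1 - v.2) = -(u.2 - v.2) by ring, abs_neg]

theorem dF_rf (T : Temp) (x : Pt) : dF (rfT T).faceSet (rg x) = dF T.faceSet x := by
  unfold dF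
  congr 1
  ext r
  constructor
  · rintro ⟨y, hy, h⟩
    refine ⟨rg y, fun hh => hy ?_, ?_⟩
    · have := (faceSet_rf T (rg y)).2 hh
      rwa [rg_rg] at this
    · rw [← dn_rg, rg_rg]
      exact h
  · rintro ⟨y, hy, h⟩
    refine ⟨rg y, fun hh => hy ((faceSet_rf T y).1 hh), ?_⟩
    rw [dn_rg]
    exact h

theorem fits_rf {T : Temp} {R : ℕ} (h : Fits T R) : Fits (rfT T) (R + 1) := by
  intro v hv
  have h1 : rg v ∈ T.faceSet := by
    rw [← faceSet_rf, rg_rg]
    exact hv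
  have h2 := h h1
  rw [Finset.mem_coe] at h2 ⊢
  unfold box rg at h2
  unfold box
  simp only [Finset.mem_product, Finset.mem_Icc] at h2 ⊢
  push_cast
  omega

theorem pr_rfT (T : Temp) (A : Conf → Prop) :
    Pr T.V A = Pr (rfT T).V (fun ω => A (rfc ω)) := by
  rw [V_rf, Pr_rf]
  simp only [rfc_rfc]

theorem area_rf {V : Finset Pt} {ω : Conf} (hω : ω ∈ DD V) {v : Pt} (hv : ω.1 v ≠ ω.2 v)
    (e : ℝ) (p0 p1 q0 q1 : ℤ) : Area Prod.fst Prod.snd (rfc ω) (rf v) e p0 p1 (-q1) (-q0) =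
      rg '' Area Prod.fst Prod.snd ω v e p0 p1 q0 q1 := by
  have key : ∀ f, surr (rfc ω) (comp (rfc ω) (rf v)) f ↔ surr ω (comp ω v) (rg f) := by
    intro f
    rw [comp_rf, ← surr_rf hω ⟨_, hv, rfl⟩ (rg f), rg_rg]
  ext f
  constructor
  · rintro ⟨h1, h2, h3, h4, h5⟩
    refine ⟨rg f, ⟨(key f).1 h1, h2, h3, ?_, ?_⟩, rg_rg f⟩
    · unfold rg
      push_cast at h5 ⊢
      linarith
    · unfold rg
      push_cast at h4 ⊢
      linarith
  · rintro ⟨g, ⟨h1, h2, h3, h4, h5⟩, rfl⟩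
    refine ⟨(key _).2 (by rwa [rg_rg]), h2, h3, ?_, ?_⟩
    · unfold rg
      push_cast
      linarith
    · unfold rg
      push_cast
      linarith

end Vale.Agent.P155.D877
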