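import Vale.Agent.P155.D877.Fat
import Vale.Agent.P155.K.Disc
import Vale.Agent.P155.TL801.Dirs

/-!
# P155, TIGHT: from the lattice forms LC, LF, LT to CROSS, FAT, TOP
-/

namespace Vale.Agent.P155.D877

open Filter Topology Vale.Agent.P155 Vale.Agent.P155.Q1 Vale.Agent.P155.Skel Vale.Agent.P155.K
open Vale.Agent.P155.TL (isDir)

/-- sizes and depths along Temperleyan approximations -/
theorem scale {Ω : Set ℂ} (S : TempApprox Ω) (hb : Bornology.IsBounded Ω)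
    {C : Set ℂ} (hC : IsCompact C) (hΩ : IsOpen Ω) (hCΩ : C ⊆ Ω) :
    ∃ A η : ℝ, 0 < A ∧ 0 < η ∧ ∃ R : ℕ → ℕ, Tendsto R atTop atTop ∧ ∀ᶠ n in atTop,
      A ≤ S.δ n * R n ∧ S.δ n * R n ≤ A + 1 ∧ Fits (S.T n) (R n) ∧
      ∀ y : Pt, K.pos (S.δ n) (S.a n) y ∈ C → η ≤ S.δ n * dF (S.T n).faceSet y := by
  obtain ⟨ϱ1, hϱ10, hϱ1⟩ := bounded_face S hb
  obtain ⟨Ca, hCa⟩ := S.bdd
  have hCa0 : 0 ≤ Ca := (norm_nonneg _).trans (hCa 0)
  set A := ϱ1 + Ca with hA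
  have hApos : 0 < A := by positivity
  obtain ⟨η, hη, hηK⟩ := hC.exists_cthickening_subset_open hΩ hCΩ
  have hKc : IsCompact (Metric.cthickening η C) := hC.cthickening
  set R : ℕ → ℕ := fun n => ⌈A / S.δ n⌉₊ with hR
  have hRtop' : Tendsto (fun n => A / S.δ n) atTop atTop := by
    have h2 : Tendsto (fun n => (S.δ n)⁻¹) atTop atTop :=
      tendsto_inv_nhdsGT_zero.comp (tendsto_nhdsWithin_iff.2 ⟨S.mesh,
        Eventually.of_forall (fun n => S.pos n)⟩)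
    exact h2.const_mul_atTop hApos
  have hRtop : Tendsto R atTop atTop := by
    rw [← tendsto_natCast_atTop_iff (R := ℝ)]
    exact tendsto_atTop_mono (fun n => Nat.le_ceil _) hRtop'
  refine ⟨A, η / 2, hApos, by positivity, R, hRtop, ?_⟩
  have hd1 : ∀ᶠ n in atTop, S.δ n < 1 := (tendsto_order.1 S.mesh).2 _ one_pos
  filter_upwards [hϱ1, hd1, S.cara₁ _ hηK hKc] with n hface hdn hcar
  have hd := S.pos n
  have hRge : A / S.δ n ≤ R n := Nat.le_ceil _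
  refine ⟨?_, ?_, ?_, ?_⟩
  · rw [div_le_iff₀ hd] at hRge
    linarith
  · have h1 := (Nat.ceil_lt_add_one (a := A / S.δ n) (by positivity)).le
    calc S.δ n * R n ≤ S.δ n * (A / S.δ n + 1) := by gcongr
      _ = A + S.δ n := by field_simp
      _ ≤ A + 1 := by linarith
  · intro y hy
    have h1 := hface y hy _ (pos_mem_sqr _ _)
    apply mem_box_of_pos hd hRge
    have := hCa n
    linarith
  · intro y hy
    obtain ⟨q, hq, hqd⟩ := H904.exists_dF (exists_notMem (S.T n)) y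
    have h2 : η < ‖K.pos (S.δ n) (S.a n) q - K.pos (S.δ n) (S.a n) y‖ := by
      by_contra hcon
      push Not at hcon
      have h3 : K.pos (S.δ n) (S.a n) q ∈ Metric.cthickening η C := by
        apply Metric.mem_cthickening_of_dist_le _ (K.pos (S.δ n) (S.a n) y) η _ hy
        rw [dist_eq_norm]
        exact hcon
      have h4 := (KConn.mem_interior_region_iff hd).1 (hcar h3) q (pos_mem_sqr _ _)
      exact hq h4
    have h5 := norm_pos_le hd (S.a n) y q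
    have h6 : ((dinf y q : ℤ) : ℝ) = (dF (S.T n).faceSet y : ℝ) := by
      rw [← hqd]
      unfold dn
      have h7 := dinf_nonneg y q
      have h8 : (((dinf y q).toNat : ℕ) : ℤ) = dinf y q := Int.toNat_of_nonneg h7
      exact_mod_cast h8.symm
    rw [h6] at h5
    linarith

variable {d : Dir}

/-- points of the enlarged rectangle are near the rectangle -/
theorem exists_near (hd : d = hor ∨ d = ver) {r0 r1 s0 s1 κ : ℝ} (hr : r0 ≤ r1) (hs : s0 ≤ s1)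
    (hκ : 0 ≤ κ) {z : ℂ} (h1 : r0 - κ ≤ d.P z) (h2 : d.P z ≤ r1 + κ) (h3 : s0 - κ ≤ d.Q z)
    (h4 : d.Q z ≤ s1 + κ) : ∃ w ∈ d.rect r0 r1 s0 s1, dist z w ≤ 2 * κ := by
  have key : ∀ a b x : ℝ, a ≤ b → a - κ ≤ x → x ≤ b + κ → ∃ y, a ≤ y ∧ y ≤ b ∧ |x - y| ≤ κ := by
    intro a b x hab h5 h6
    refine ⟨max a (min b x), le_max_left _ _, max_le hab (min_le_left _ _), ?_⟩
    rw [abs_le]
    rcases le_total b x with h | h
    · rw [min_eq_left h, max_eq_right hab]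
      constructor <;> linarith
    · rw [min_eq_right h]
      rcases le_total a x with h' | h'
      · rw [max_eq_right h']
        constructor <;> linarith
      · rw [max_eq_left h']
        constructor <;> linarith
  obtain ⟨a, ha1, ha2, ha3⟩ := key r0 r1 (d.P z) hr h1 h2
  obtain ⟨b, hb1, hb2, hb3⟩ := key s0 s1 (d.Q z) hs h3 h4
  rcases hd with rfl | rfl
  · refine ⟨⟨a, b⟩, ⟨ha1, ha2, hb1, hb2⟩, ?_⟩
    rw [Complex.dist_eq]
    refine (Complex.norm_le_abs_re_add_abs_im _).trans ?_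
    have e1 : (z - (⟨a, b⟩ : ℂ)).re = z.re - a := rfl
    have e2 : (z - (⟨a, b⟩ : ℂ)).im = z.im - b := rfl
    rw [e1, e2]
    change |z.re - a| ≤ κ at ha3
    change |z.im - b| ≤ κ at hb3
    linarith
  · refine ⟨⟨b, a⟩, ⟨ha1, ha2, hb1, hb2⟩, ?_⟩
    rw [Complex.dist_eq]
    refine (Complex.norm_le_abs_re_add_abs_im _).trans ?_
    have e1 : (z - (⟨b, a⟩ : ℂ)).re = z.re - b := rfl
    have e2 : (z - (⟨b, a⟩ : ℂ)).im = z.im - a := rfl
    rw [e1, e2]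
    change |z.im - a| ≤ κ at ha3
    change |z.re - b| ≤ κ at hb3
    linarith

theorem sqr_coord (hd : d = hor ∨ d = ver) {δ : ℝ} (hδ : 0 < δ) {a z : ℂ} {f : Pt}
    (hz : z ∈ sqr δ a f) : d.P a + δ * d.p f ≤ d.P z ∧ d.P z ≤ d.P a + δ * (d.p f + 1) ∧
      d.Q a + δ * d.q f ≤ d.Q z ∧ d.Q z ≤ d.Q a + δ * (d.q f + 1) := by
  obtain ⟨s, t, hs0, hs1, ht0, ht1, rfl⟩ := hz
  have e1 : (a + δ * (((f.1 : ℝ) + s : ℝ) + ((f.2 : ℝ) + t : ℝ) * Complex.I)).re =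
      a.re + δ * (f.1 + s) := by simp
  have e2 : (a + δ * (((f.1 : ℝ) + s : ℝ) + ((f.2 : ℝ) + t : ℝ) * Complex.I)).im =
      a.im + δ * (f.2 + t) := by simp
  have k1 : δ * (f.1 : ℝ) ≤ δ * (f.1 + s) := by gcongr; linarith
  have k2 : δ * ((f.1 : ℝ) + s) ≤ δ * (f.1 + 1) := by gcongr
  have k3 : δ * (f.2 : ℝ) ≤ δ * (f.2 + t) := by gcongr; linarith
  have k4 : δ * ((f.2 : ℝ) + t) ≤ δ * (f.2 + 1) := by gcongr
  rcases hd with rfl | rfl
  · simp only [hor]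
    rw [e1, e2]
    exact ⟨by linarith, by linarith, by linarith, by linarith⟩
  · simp only [ver]
    rw [e1, e2]
    exact ⟨by linarith, by linarith, by linarith, by linarith⟩

theorem isCompact_rect (hd : d = hor ∨ d = ver) {Ω : Set ℂ} (hb : Bornology.IsBounded Ω)
    {r0 r1 s0 s1 : ℝ} (h : d.rect r0 r1 s0 s1 ⊆ Ω) : IsCompact (d.rect r0 r1 s0 s1) := by
  refine Metric.isCompact_of_isClosed_isBounded ?_ (hb.subset h)
  have e : d.rect r0 r1 s0 s1 = {z | r0 ≤ d.P z} ∩ {z | d.P z ≤ r1} ∩ {z | s0 ≤ d.Q z} ∩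
      {z | d.Q z ≤ s1} := by
    ext z
    simp only [Dir.rect, Set.mem_ofPred_eq, Set.mem_inter_iff]
    tauto
  rw [e]
  have hD := isDir hd
  exact (((isClosed_le continuous_const hD.P_cont).inter
    (isClosed_le hD.P_cont continuous_const)).inter
    (isClosed_le continuous_const hD.Q_cont)).inter (isClosed_le hD.Q_cont continuous_const)

/-- gaps between lattice coordinates -/
theorem lp_gap {δ A c r r' : ℝ} {R : ℕ} (hδ : 0 < δ) (hR : δ * R ≤ A + 1) (hc0 : 0 ≤ c)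
    (hc : c * (A + 1) ≤ (r' - r) / 2) (hs : δ ≤ (r' - r) / 2) (a : ℝ) :
    c * R ≤ (⌊(r' - a) / δ⌋ : ℝ) - ⌊(r - a) / δ⌋ := by
  have h1 := Int.sub_one_lt_floor ((r' - a) / δ)
  have h2 := Int.floor_le ((r - a) / δ)
  have h3 : c * R * δ ≤ (r' - r) / 2 := by nlinarith
  have h4 : c * R ≤ (r' - r) / 2 / δ := by rwa [le_div_iff₀ hδ]
  have h5 : (1 : ℝ) ≤ (r' - r) / 2 / δ := by rwa [le_div_iff₀ hδ, one_mul]
  have h6 : (r' - a) / δ - (r - a) / δ = (r' - r) / 2 / δ + (r' - r) / 2 / δ := by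
    field_simp
    ring
  linarith

/-- the lattice rectangles of a macroscopic rectangle in `Ω` -/
theorem lrect_ev {Ω : Set ℂ} (S : TempApprox Ω) (hΩ : IsOpen Ω) (hb : Bornology.IsBounded Ω)
    (hd : d = hor ∨ d = ver) {r0 r1 s0 s1 : ℝ} (hr : r0 < r1) (hs : s0 < s1)
    (hsub : d.rect r0 r1 s0 s1 ⊆ Ω) : ∃ A c0 : ℝ, 0 < A ∧ 0 < c0 ∧ ∃ R : ℕ → ℕ,
      Tendsto R atTop atTop ∧ ∀ᶠ n in atTop, A ≤ S.δ n * R n ∧ S.δ n * R n ≤ A + 1 ∧
        Fits (S.T n) (R n) ∧ ∀ c ≤ c0, 0 < c → LRect d.p d.q (S.T n) (R n) c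
          (d.lp (S.δ n) (S.a n) r0) (d.lp (S.δ n) (S.a n) r1) (d.lq (S.δ n) (S.a n) s0)
          (d.lq (S.δ n) (S.a n) s1) := by
  have hK := isCompact_rect hd hb hsub
  obtain ⟨κ, hκ, hκK⟩ := hK.exists_cthickening_subset_open hΩ hsub
  have hKc : IsCompact (Metric.cthickening κ (d.rect r0 r1 s0 s1)) := hK.cthickening
  obtain ⟨A, η, hA, hη, R, hR, hev⟩ := scale S hb hKc hΩ hκK
  set c0 := min η (min ((r1 - r0) / 2) ((s1 - s0) / 2)) / (A + 1) with hc0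
  have hm : 0 < min η (min ((r1 - r0) / 2) ((s1 - s0) / 2)) :=
    lt_min hη (lt_min (by linarith) (by linarith))
  have hc0pos : 0 < c0 := by positivity
  have hc0A : c0 * (A + 1) = min η (min ((r1 - r0) / 2) ((s1 - s0) / 2)) := by
    rw [hc0]
    field_simp
  refine ⟨A, c0, hA, hc0pos, R, hR, ?_⟩
  have hd1 : ∀ᶠ n in atTop, S.δ n < min (κ / 2) (min ((r1 - r0) / 2) ((s1 - s0) / 2)) :=
    (tendsto_order.1 S.mesh).2 _ (lt_min (by positivity) (lt_min (by linarith) (by linarith)))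
  filter_upwards [hev, hd1] with n hn hdn
  obtain ⟨h1, h2, h3, h4⟩ := hn
  have hδ := S.pos n
  have g1 : S.δ n ≤ κ / 2 := hdn.le.trans (min_le_left _ _)
  have g2 : S.δ n ≤ (r1 - r0) / 2 := hdn.le.trans ((min_le_right _ _).trans (min_le_left _ _))
  have g3 : S.δ n ≤ (s1 - s0) / 2 := hdn.le.trans ((min_le_right _ _).trans (min_le_right _ _))
  refine ⟨h1, h2, h3, fun c hc hcpos => ?_⟩
  have e0 : c * (A + 1) ≤ min η (min ((r1 - r0) / 2) ((s1 - s0) / 2)) := by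
    rw [← hc0A]
    gcongr
  have e1 : c * (A + 1) ≤ η := e0.trans (min_le_left _ _)
  have e2 : c * (A + 1) ≤ (r1 - r0) / 2 := e0.trans ((min_le_right _ _).trans (min_le_left _ _))
  have e3 : c * (A + 1) ≤ (s1 - s0) / 2 := e0.trans ((min_le_right _ _).trans (min_le_right _ _))
  have hD := isDir hd
  refine ⟨lp_gap hδ h2 hcpos.le e2 g2 _, lp_gap hδ h2 hcpos.le e3 g3 _, ?_⟩
  intro z a1 a2 a3 a4
  have b1 : r0 - S.δ n < d.P (S.a n) + S.δ n * (d.p z : ℝ) :=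
    TL.lp_le hδ (by exact_mod_cast a1)
  have b2 : d.P (S.a n) + S.δ n * (d.p z : ℝ) ≤ r1 := TL.le_lp hδ (by exact_mod_cast a2)
  have b3 : s0 - S.δ n < d.Q (S.a n) + S.δ n * (d.q z : ℝ) :=
    TL.lp_le (d := ⟨d.q, d.p, d.Q, d.P⟩) hδ (by exact_mod_cast a3)
  have b4 : d.Q (S.a n) + S.δ n * (d.q z : ℝ) ≤ s1 :=
    TL.le_lp (d := ⟨d.q, d.p, d.Q, d.P⟩) hδ (by exact_mod_cast a4)
  have hpos : K.pos (S.δ n) (S.a n) z = pt (S.δ n) (S.a n) z := by
    apply Complex.ext <;> simp [K.pos, pt]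
  have hmem : K.pos (S.δ n) (S.a n) z ∈ Metric.cthickening κ (d.rect r0 r1 s0 s1) := by
    rw [hpos]
    obtain ⟨w, hw, hzw⟩ := exists_near hd hr.le hs.le (κ := κ / 2) (by positivity)
      (z := pt (S.δ n) (S.a n) z) (by rw [hD.P_pt]; linarith) (by rw [hD.P_pt]; linarith)
      (by rw [hD.Q_pt]; linarith) (by rw [hD.Q_pt]; linarith)
    exact Metric.mem_cthickening_of_dist_le _ w κ _ hw (by linarith)
  have h5 := h4 z hmem
  have h6 : c * R n * S.δ n ≤ dF (S.T n).faceSet z * S.δ n := by nlinarith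
  exact le_of_mul_le_mul_right h6 hδ

/-- **CROSS** -/
theorem cross_of (hd : d = hor ∨ d = ver) (h : LC d.p d.q) : CROSS d := by
  intro Ω hΩ hb _ _ S r0 r1 s0 s1 hr hs hsub ε hε
  obtain ⟨A, c0, hA, hc0, R, hR, hev⟩ := lrect_ev S hΩ hb hd hr hs hsub
  obtain ⟨M, R0, h1⟩ := h c0 ε hc0 hε
  refine ⟨M, ?_⟩
  filter_upwards [hev, hR.eventually_ge_atTop R0] with n hn hRn
  exact h1 (R n) hRn (S.T n) hn.2.2.1 _ _ _ _ (hn.2.2.2 c0 le_rfl hc0)

/-- **TOP** -/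
theorem top_of (hd : d = hor ∨ d = ver) (h : LT d.p d.q) : TOP d := by
  intro Ω hΩ hb _ _ S r0 r0' r1' r1 s0 s1 h01 h12 h23 hs hsub ε hε
  obtain ⟨A, c0, hA, hc0, R, hR, hev⟩ := lrect_ev S hΩ hb hd (h01.trans (h12.trans h23)) hs hsub
  set e := min (r0' - r0) (min (r1' - r0') (r1 - r1')) / 2 with he
  have hepos : 0 < e := by
    have : 0 < min (r0' - r0) (min (r1' - r0') (r1 - r1')) :=
      lt_min (by linarith) (lt_min (by linarith) (by linarith))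
    positivity
  have he1 : e ≤ (r0' - r0) / 2 := by
    rw [he]
    gcongr
    exact min_le_left _ _
  have he2 : e ≤ (r1' - r0') / 2 := by
    rw [he]
    gcongr
    exact (min_le_right _ _).trans (min_le_left _ _)
  have he3 : e ≤ (r1 - r1') / 2 := by
    rw [he]
    gcongr
    exact (min_le_right _ _).trans (min_le_right _ _)
  set c := min c0 (e / (A + 1)) with hc
  have hcpos : 0 < c := lt_min hc0 (by positivity)
  have hcA : c * (A + 1) ≤ e := by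
    have : c ≤ e / (A + 1) := min_le_right _ _
    rwa [le_div_iff₀ (by positivity)] at this
  obtain ⟨α, hα, R0, h1⟩ := h c ε hcpos hε
  refine ⟨α * A ^ 2, by positivity, ?_⟩
  have hd1 : ∀ᶠ n in atTop, S.δ n < e := (tendsto_order.1 S.mesh).2 _ hepos
  filter_upwards [hev, hR.eventually_ge_atTop R0, hd1] with n hn hRn hdn
  obtain ⟨g1, g2, g3, g4⟩ := hn
  have hδ := S.pos n
  have k1 := lp_gap hδ g2 hcpos.le (hcA.trans he1) (hdn.le.trans he1) (d.P (S.a n))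
  have k2 := lp_gap hδ g2 hcpos.le (hcA.trans he2) (hdn.le.trans he2) (d.P (S.a n))
  have k3 := lp_gap hδ g2 hcpos.le (hcA.trans he3) (hdn.le.trans he3) (d.P (S.a n))
  have key := h1 (R n) hRn (S.T n) g3 _ _ _ _ (d.lp (S.δ n) (S.a n) r0')
    (d.lp (S.δ n) (S.a n) r1') (g4 c (min_le_left _ _) hcpos)
    (by unfold Dir.lp; linarith) (by unfold Dir.lp; linarith) (by unfold Dir.lp; linarith)
  refine (E.Pr_mono (fun ω _ => ?_)).trans key
  rintro ⟨v, m, v', m', hv, hv', hne, hsame, ht⟩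
  refine ⟨v, m, v', m', hv, hv', hne, hsame, ?_⟩
  have h5 : A ^ 2 ≤ (S.δ n * R n) ^ 2 := by gcongr
  have h6 : S.δ n ^ 2 * (∑ X ∈ Finset.Ico (d.lp (S.δ n) (S.a n) r0') (d.lp (S.δ n) (S.a n) r1'),
      |(topS d.p d.q ω v m X : ℝ) - topS d.p d.q ω v' m' X|) <
      S.δ n ^ 2 * (α * (R n : ℝ) ^ 2) := by
    refine ht.trans_le ?_
    nlinarith
  exact lt_of_mul_lt_mul_left h6 (by positivity)

/-- **FAT** -/
theorem fat_of (hd : d = hor ∨ d = ver) (h : LF d.p d.q) : FAT d := by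
  intro Ω hΩ hb _ _ S r0 r1 s0 s1 r0' r1' s0' s1' hr hs h1 h2 h3 h4 hsub' ε hε
  have hsub : d.rect r0 r1 s0 s1 ⊆ Ω := by
    rintro z ⟨a1, a2, a3, a4⟩
    exact hsub' ⟨by linarith, by linarith, by linarith, by linarith⟩
  obtain ⟨A, c0, hA, hc0, R, hR, hev⟩ := lrect_ev S hΩ hb hd hr hs hsub
  set e := min (min (r0 - r0') (r1' - r1)) (min (s0 - s0') (s1' - s1)) / 3 with he
  have hepos : 0 < e := by
    have : 0 < min (min (r0 - r0') (r1' - r1)) (min (s0 - s0') (s1' - s1)) :=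
      lt_min (lt_min (by linarith) (by linarith)) (lt_min (by linarith) (by linarith))
    positivity
  have he1 : e ≤ (r0 - r0') / 3 := by
    rw [he]
    gcongr
    exact (min_le_left _ _).trans (min_le_left _ _)
  have he2 : e ≤ (r1' - r1) / 3 := by
    rw [he]
    gcongr
    exact (min_le_left _ _).trans (min_le_right _ _)
  have he3 : e ≤ (s0 - s0') / 3 := by
    rw [he]
    gcongr
    exact (min_le_right _ _).trans (min_le_left _ _)
  have he4 : e ≤ (s1' - s1) / 3 := by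
    rw [he]
    gcongr
    exact (min_le_right _ _).trans (min_le_right _ _)
  set c := min c0 (e / (A + 1)) with hc
  have hcpos : 0 < c := lt_min hc0 (by positivity)
  have hcA : c * (A + 1) ≤ e := by
    have : c ≤ e / (A + 1) := min_le_right _ _
    rwa [le_div_iff₀ (by positivity)] at this
  obtain ⟨α, hα, R0, h1'⟩ := h c ε hcpos hε
  refine ⟨α * A ^ 2, by positivity, ?_⟩
  have hd1 : ∀ᶠ n in atTop, S.δ n < e := (tendsto_order.1 S.mesh).2 _ hepos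
  filter_upwards [hev, hR.eventually_ge_atTop R0, hd1] with n hn hRn hdn
  obtain ⟨g1, g2, g3, g4⟩ := hn
  have hδ := S.pos n
  have key := h1' (R n) hRn (S.T n) g3 _ _ _ _ (g4 c (min_le_left _ _) hcpos)
  refine (E.Pr_mono (fun ω _ => ?_)).trans key
  rintro ⟨v, m, hv, ha⟩
  refine ⟨v, m, hv, ?_⟩
  have h5 : A ^ 2 ≤ (S.δ n * R n) ^ 2 := by gcongr
  have hD := isDir hd
  have hcR : c * R n * S.δ n ≤ e := by nlinarith
  -- the faces of the lattice area are in the macroscopic rectangle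
  have hfin : {f : Pt | surr ω (comp ω v) f ∧
      sqr (S.δ n) (S.a n) f ⊆ d.rect r0' r1' s0' s1'}.Finite := by
    obtain ⟨r, hr'⟩ := hb.subset_closedBall (0 : ℂ)
    refine (Finset.finite_toSet (box (0, 0) ⌈(r + ‖S.a n‖) / S.δ n⌉₊)).subset ?_
    rintro f ⟨_, hf⟩
    have h7 := hr' (hsub' (hf (pos_mem_sqr (S.a n) f)))
    rw [mem_closedBall_zero_iff] at h7
    exact mem_box_of_pos hδ (Nat.le_ceil _) (by linarith)
  have hle : Set.ncard (Area d.p d.q ω v (c * R n) (d.lp (S.δ n) (S.a n) r0)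
      (d.lp (S.δ n) (S.a n) r1) (d.lq (S.δ n) (S.a n) s0) (d.lq (S.δ n) (S.a n) s1)) ≤
      Set.ncard {f : Pt | surr ω (comp ω v) f ∧
        sqr (S.δ n) (S.a n) f ⊆ d.rect r0' r1' s0' s1'} := by
    refine Set.ncard_le_ncard ?_ hfin
    rintro f ⟨b1, b2, b3, b4, b5⟩
    refine ⟨b1, fun z hz => ?_⟩
    obtain ⟨k1, k2, k3, k4⟩ := sqr_coord hd hδ hz
    have l1 : r0 - S.δ n < d.P (S.a n) + S.δ n * (d.lp (S.δ n) (S.a n) r0 : ℝ) :=
      TL.lp_le hδ le_rfl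
    have l2 : d.P (S.a n) + S.δ n * (d.lp (S.δ n) (S.a n) r1 : ℝ) ≤ r1 := TL.le_lp hδ le_rfl
    have l3 : s0 - S.δ n < d.Q (S.a n) + S.δ n * (d.lq (S.δ n) (S.a n) s0 : ℝ) :=
      TL.lp_le (d := ⟨d.q, d.p, d.Q, d.P⟩) hδ le_rfl
    have l4 : d.Q (S.a n) + S.δ n * (d.lq (S.δ n) (S.a n) s1 : ℝ) ≤ s1 :=
      TL.le_lp (d := ⟨d.q, d.p, d.Q, d.P⟩) hδ le_rfl
    have m1 : S.δ n * ((d.lp (S.δ n) (S.a n) r0 : ℝ) - c * R n) ≤ S.δ n * d.p f := by gcongr
    have m2 : S.δ n * ((d.p f : ℝ) + 1) ≤ S.δ n * ((d.lp (S.δ n) (S.a n) r1 : ℝ) + c * R n) := by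
      gcongr
    have m3 : S.δ n * ((d.lq (S.δ n) (S.a n) s0 : ℝ) - c * R n) ≤ S.δ n * d.q f := by gcongr
    have m4 : S.δ n * ((d.q f : ℝ) + 1) ≤ S.δ n * ((d.lq (S.δ n) (S.a n) s1 : ℝ) + c * R n) := by
      gcongr
    have m0 : S.δ n * (c * R n) ≤ e := by linarith
    rw [mul_sub] at m1 m3
    rw [mul_add (S.δ n) (d.lp (S.δ n) (S.a n) r1 : ℝ)] at m2
    rw [mul_add (S.δ n) (d.lq (S.δ n) (S.a n) s1 : ℝ)] at m4
    exact ⟨by linarith, by linarith, by linarith, by linarith⟩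
  have h6 : S.δ n ^ 2 * (Set.ncard (Area d.p d.q ω v (c * R n) (d.lp (S.δ n) (S.a n) r0)
      (d.lp (S.δ n) (S.a n) r1) (d.lq (S.δ n) (S.a n) s0) (d.lq (S.δ n) (S.a n) s1)) : ℝ) <
      S.δ n ^ 2 * (α * (R n : ℝ) ^ 2) := by
    refine lt_of_le_of_lt ?_ (ha.trans_le ?_)
    · gcongr
    · nlinarith
  exact lt_of_mul_lt_mul_left h6 (by positivity)

/-- **assembly**: everything about crossings from the three lattice statements -/
theorem tight_of (h1 : LC Prod.fst Prod.snd) (h2 : LFup) (h3 : LT Prod.fst Prod.snd) :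
    (CROSS hor ∧ CROSS ver) ∧ (FAT hor ∧ FAT ver) ∧ (TOP hor ∧ TOP ver) :=
  ⟨⟨cross_of (Or.inl rfl) h1, cross_of (Or.inr rfl) (lc_tr h1)⟩,
    ⟨fat_of (Or.inl rfl) (lf_of_up h2), fat_of (Or.inr rfl) (lf_tr (lf_of_up h2))⟩,
    ⟨top_of (Or.inl rfl) h3, top_of (Or.inr rfl) (lt_tr h3)⟩⟩

end Vale.Agent.P155.D877
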